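import Vale.Agent.P131.Mat

/-!
Symmetric Jordan chains of the weighted sum of lowering matrices.
-/

namespace Vale.Agent.P131

open Matrix Finset

/-- The number of one bits. -/
def ones {α : Type} [Fintype α] (x : Bits α) : ℕ := ∑ i, (x i).val

/-- Vectors supported on configurations with exactly `j` one bits. -/
def levelSub (k j : ℕ) : Submodule ℂ (Bits (Fin k) → ℂ) where
  carrier := {f | ∀ x, ones x ≠ j → f x = 0}
  add_mem' := fun {a b} ha hb x hx => by simp [ha x hx, hb x hx]
  zero_mem' := fun x _ => rfl
  smul_mem' := fun r a ha x hx => by simp [ha x hx]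

/-- The lowering sum as a linear map. -/
noncomputable def lowerLin {k : ℕ} (c : Fin k → ℝ) :
    (Bits (Fin k) → ℂ) →ₗ[ℂ] (Bits (Fin k) → ℂ) := (lowerSum c).mulVecLin

theorem lowerLin_apply {k : ℕ} (c : Fin k → ℝ) (f : Bits (Fin k) → ℂ) (x : Bits (Fin k)) :
    lowerLin c f x = ∑ i, if x i = 1 then (c i : ℂ) * f (x + Pi.single i 1) else 0 := by
  simp only [lowerLin, lowerSum, Matrix.mulVecLin_apply, Matrix.sum_mulVec, Finset.sum_apply,
    Matrix.smul_mulVec, Pi.smul_apply, smul_eq_mul]
  refine Finset.sum_congr rfl fun i _ => ?_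
  have hflip : x = x + Pi.single i 1 + Pi.single i 1 := by
    rw [add_assoc, bits_add_self, add_zero]
  have hiff : ∀ y, (x = y + Pi.single i 1 ∧ y i = 0) ↔ (y = x + Pi.single i 1 ∧ x i = 1) := by
    intro y
    constructor
    · rintro ⟨rfl, h⟩
      refine ⟨by rw [add_assoc, bits_add_self, add_zero], ?_⟩
      simp [h]
    · rintro ⟨rfl, h⟩
      exact ⟨hflip, by simp [h]; decide⟩
  simp only [mulVec, dotProduct, lowerMat, of_apply]
  rw [Finset.sum_eq_single (x + Pi.single i 1)
    (fun y _ hy => by rw [if_neg fun h => hy ((hiff y).1 h).1, zero_mul]) (by simp)]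
  by_cases h : x i = 1
  · rw [if_pos h, if_pos ((hiff _).2 ⟨rfl, h⟩), one_mul]
  · rw [if_neg h, if_neg fun h' => h ((hiff _).1 h').2, zero_mul, mul_zero]

theorem ones_cons {k : ℕ} (t : ZMod 2) (x : Bits (Fin k)) :
    ones (Fin.cons t x : Bits (Fin (k + 1))) = t.val + ones x := by
  simp [ones, Fin.sum_univ_succ]

/-- A vector on the last sites, with a given bit at the first site. -/
def place {k : ℕ} (t : ZMod 2) : (Bits (Fin k) → ℂ) →ₗ[ℂ] (Bits (Fin (k + 1)) → ℂ) where
  toFun f x := if x 0 = t then f (Fin.tail x) else 0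
  map_add' f g := by ext x; simp only [Pi.add_apply]; split_ifs <;> simp
  map_smul' r f := by ext x; simp

theorem place_apply {k : ℕ} (t : ZMod 2) (f : Bits (Fin k) → ℂ) (x : Bits (Fin (k + 1))) :
    place t f x = if x 0 = t then f (Fin.tail x) else 0 := rfl

theorem tail_add_single_zero {k : ℕ} (x : Bits (Fin (k + 1))) :
    Fin.tail (x + Pi.single 0 1 : Bits (Fin (k + 1))) = Fin.tail x := by
  funext i
  simp [Fin.tail]

theorem tail_add_single_succ {k : ℕ} (x : Bits (Fin (k + 1))) (j : Fin k) :
    Fin.tail (x + Pi.single j.succ 1 : Bits (Fin (k + 1))) = Fin.tail x + Pi.single j 1 := by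
  funext i
  simp [Fin.tail, Pi.single_apply]

theorem lower_up {k : ℕ} (c : Fin (k + 1) → ℝ) (f : Bits (Fin k) → ℂ) :
    lowerLin c (place 0 f) = place 0 (lowerLin (Fin.tail c) f) + (c 0 : ℂ) • place 1 f := by
  funext x
  have h11 : (1 : ZMod 2) + 1 = 0 := by decide
  simp only [lowerLin_apply, Fin.sum_univ_succ, Pi.add_apply, Pi.smul_apply, smul_eq_mul,
    place_apply, tail_add_single_zero, tail_add_single_succ]
  rcases zmod2_cases (x 0) with h | h <;> simp [h, h11, Fin.tail] <;>
    exact Finset.sum_congr rfl fun i _ => by congr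

theorem lower_down {k : ℕ} (c : Fin (k + 1) → ℝ) (f : Bits (Fin k) → ℂ) :
    lowerLin c (place 1 f) = place 1 (lowerLin (Fin.tail c) f) := by
  funext x
  have h11 : (1 : ZMod 2) + 1 = 0 := by decide
  simp only [lowerLin_apply, Fin.sum_univ_succ, place_apply, tail_add_single_zero,
    tail_add_single_succ]
  rcases zmod2_cases (x 0) with h | h <;> simp [h, h11, Fin.tail] <;>
    exact Finset.sum_congr rfl fun i _ => by congr

theorem pow_down {k : ℕ} (c : Fin (k + 1) → ℝ) (m : ℕ) (f : Bits (Fin k) → ℂ) :
    (lowerLin c ^ m) (place 1 f) = place 1 ((lowerLin (Fin.tail c) ^ m) f) := by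
  induction m generalizing f with
  | zero => rfl
  | succ m ih => simp only [pow_succ, Module.End.mul_apply, lower_down, ih]

theorem pow_up {k : ℕ} (c : Fin (k + 1) → ℝ) (m : ℕ) (f : Bits (Fin k) → ℂ) :
    (lowerLin c ^ (m + 1)) (place 0 f) = place 0 ((lowerLin (Fin.tail c) ^ (m + 1)) f) +
      ((m + 1 : ℂ) * (c 0 : ℂ)) • place 1 ((lowerLin (Fin.tail c) ^ m) f) := by
  induction m generalizing f with
  | zero => simp [lower_up]
  | succ m ih =>
      rw [pow_succ, Module.End.mul_apply, lower_up, map_add, ih, map_smul, pow_down]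
      rw [show (lowerLin (Fin.tail c) ^ (m + 1 + 1)) f =
        (lowerLin (Fin.tail c) ^ (m + 1)) (lowerLin (Fin.tail c) f) by
          rw [pow_succ, Module.End.mul_apply],
        show (lowerLin (Fin.tail c) ^ (m + 1)) f =
          (lowerLin (Fin.tail c) ^ m) (lowerLin (Fin.tail c) f) by
            rw [pow_succ, Module.End.mul_apply]]
      rw [add_assoc, ← add_smul]
      congr 2
      push_cast
      ring

theorem place_mem_level {k : ℕ} (t : ZMod 2) {j : ℕ} {f : Bits (Fin k) → ℂ}
    (hf : f ∈ levelSub k j) : place t f ∈ levelSub (k + 1) (t.val + j) := by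
  intro x hx
  rw [place_apply]
  split_ifs with h
  · refine hf _ fun he => hx ?_
    rw [← Fin.cons_self_tail x, ones_cons, he, h]
  · rfl

theorem lowerLin_mem_level {k : ℕ} (c : Fin k → ℝ) {j : ℕ} {f : Bits (Fin k) → ℂ}
    (hf : f ∈ levelSub k j) : lowerLin c f ∈ levelSub k (j + 1) := by
  intro x hx
  rw [lowerLin_apply]
  refine Finset.sum_eq_zero fun i _ => ?_
  split_ifs with h
  · rw [hf _ fun he => hx ?_, mul_zero]
    rw [← he]
    have e1 : ones x = (x i).val + ∑ l ∈ Finset.univ.erase i, (x l).val :=
      (Finset.add_sum_erase _ (fun l => (x l).val) (Finset.mem_univ i)).symm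
    have e2 : ones (x + Pi.single i 1) = ((x + Pi.single i 1 : Bits (Fin k)) i).val +
        ∑ l ∈ Finset.univ.erase i, ((x + Pi.single i 1 : Bits (Fin k)) l).val :=
      (Finset.add_sum_erase _ (fun l => ((x + Pi.single i 1 : Bits (Fin k)) l).val)
        (Finset.mem_univ i)).symm
    rw [e1, e2]
    have : ∀ l ∈ (Finset.univ : Finset (Fin k)).erase i,
        ((x + Pi.single i 1 : Bits (Fin k)) l).val = (x l).val := fun l hl => by
      simp [Finset.ne_of_mem_erase hl]
    rw [Finset.sum_congr rfl this]
    have h0 : ((1 : ZMod 2) + 1).val = 0 := by decide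
    have h1 : ((1 : ZMod 2)).val = 1 := by decide
    simp only [Pi.add_apply, Pi.single_eq_same, h, h0, h1]
    omega
  · rfl

theorem pow_mem_level {k : ℕ} (c : Fin k → ℝ) {j : ℕ} {f : Bits (Fin k) → ℂ}
    (hf : f ∈ levelSub k j) (m : ℕ) : (lowerLin c ^ m) f ∈ levelSub k (j + m) := by
  induction m with
  | zero => exact hf
  | succ m ih =>
      rw [pow_succ', Module.End.mul_apply]
      exact lowerLin_mem_level c ih

/-- A basis of symmetric Jordan chains of homogeneous vectors. -/
structure Chains {k : ℕ} (c : Fin k → ℝ) where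
  /-- The chains. -/
  idx : Type
  [fin : Fintype idx]
  /-- The length of a chain. -/
  len : idx → ℕ
  /-- The level of the first vector. -/
  lev : idx → ℕ
  /-- The first vector. -/
  top : idx → Bits (Fin k) → ℂ
  len_pos : ∀ a, 0 < len a
  symm : ∀ a, 2 * lev a + len a = k + 1
  top_mem : ∀ a, top a ∈ levelSub k (lev a)
  top_end : ∀ a, (lowerLin c ^ len a) (top a) = 0
  spans : ⊤ ≤ Submodule.span ℂ
    (Set.range fun p : Σ a, Fin (len a) => (lowerLin c ^ (p.2 : ℕ)) (top p.1))
  total : ∑ a, len a = 2 ^ k

attribute [instance] Chains.fin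

theorem sum_card_eq {k : ℕ} {c : Fin k → ℝ} (C : Chains c) :
    Fintype.card (Σ a, Fin (C.len a)) = 2 ^ k := by
  simp [C.total]

theorem exists_chains : ∀ {k : ℕ} (c : Fin k → ℝ), (∀ i, c i ≠ 0) → Nonempty (Chains c)
  | 0, c, _ => ⟨{
      idx := Unit
      len := fun _ => 1
      lev := fun _ => 0
      top := fun _ _ => 1
      len_pos := fun _ => one_pos
      symm := fun _ => rfl
      top_mem := fun _ x hx => absurd (by simp [ones]) hx
      top_end := fun _ => by funext x; simp [lowerLin_apply]
      spans := by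
        intro f _
        have : f = f 0 • (fun _ => 1 : Bits (Fin 0) → ℂ) := by
          funext x
          simp [Subsingleton.elim x 0]
        rw [this]
        exact Submodule.smul_mem _ _ (Submodule.subset_span ⟨⟨(), 0⟩, rfl⟩)
      total := by simp }⟩
  | k + 1, c, hc => by
    obtain ⟨C⟩ := exists_chains (Fin.tail c) fun i => hc i.succ
    classical
    let top' : C.idx ⊕ {a : C.idx // 2 ≤ C.len a} → Bits (Fin (k + 1)) → ℂ :=
      Sum.elim (fun a => place 0 (C.top a)) fun a =>
        place 0 (lowerLin (Fin.tail c) (C.top a.1)) -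
          (((C.len a.1 - 1 : ℕ) : ℂ) * (c 0 : ℂ)) • place 1 (C.top a.1)
    let len' : C.idx ⊕ {a : C.idx // 2 ≤ C.len a} → ℕ :=
      Sum.elim (fun a => C.len a + 1) fun a => C.len a.1 - 1
    let lev' : C.idx ⊕ {a : C.idx // 2 ≤ C.len a} → ℕ :=
      Sum.elim C.lev fun a => C.lev a.1 + 1
    have v0 : (0 : ZMod 2).val = 0 := rfl
    have v1 : (1 : ZMod 2).val = 1 := rfl
    let S := Submodule.span ℂ
      (Set.range fun p : Σ a, Fin (len' a) => (lowerLin c ^ (p.2 : ℕ)) (top' p.1))
    refine ⟨{
      idx := C.idx ⊕ {a : C.idx // 2 ≤ C.len a}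
      len := len'
      lev := lev'
      top := top'
      len_pos := ?_
      symm := ?_
      top_mem := ?_
      top_end := ?_
      spans := ?_
      total := ?_ }⟩
    · rintro (a | ⟨a, ha⟩)
      · simp [len']
      · simp [len']; omega
    · rintro (a | ⟨a, ha⟩) <;> have := C.symm a <;> simp [len', lev'] <;> omega
    · rintro (a | ⟨a, ha⟩)
      · have := place_mem_level 0 (C.top_mem a)
        simpa [top', lev', v0] using this
      · refine Submodule.sub_mem _ ?_ (Submodule.smul_mem _ _ ?_)
        · have := place_mem_level 0 (lowerLin_mem_level (Fin.tail c) (C.top_mem a))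
          simpa [lev', v0] using this
        · have := place_mem_level 1 (C.top_mem a)
          simpa [lev', v1, add_comm] using this
    · rintro (a | ⟨a, ha⟩)
      · show (lowerLin c ^ (C.len a + 1)) (place 0 (C.top a)) = 0
        rw [pow_up, C.top_end, pow_succ', Module.End.mul_apply, C.top_end]
        simp
      · obtain ⟨l, hl⟩ : ∃ l, C.len a = l + 2 := ⟨C.len a - 2, by omega⟩
        show (lowerLin c ^ (C.len a - 1)) (place 0 (lowerLin (Fin.tail c) (C.top a)) -
          (((C.len a - 1 : ℕ) : ℂ) * (c 0 : ℂ)) • place 1 (C.top a)) = 0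
        rw [hl, show l + 2 - 1 = l + 1 from rfl, map_sub, pow_up, map_smul, pow_down]
        have e1 : (lowerLin (Fin.tail c) ^ (l + 1)) (lowerLin (Fin.tail c) (C.top a)) = 0 := by
          rw [← Module.End.mul_apply, ← pow_succ, ← hl, C.top_end]
        have e2 : (lowerLin (Fin.tail c) ^ l) (lowerLin (Fin.tail c) (C.top a)) =
            (lowerLin (Fin.tail c) ^ (l + 1)) (C.top a) := by
          rw [← Module.End.mul_apply, ← pow_succ]
        rw [e1, e2]
        push_cast
        simp
    · show ⊤ ≤ S
      have hA : ∀ (a : C.idx) (m : ℕ), m < C.len a + 1 →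
          (lowerLin c ^ m) (place 0 (C.top a)) ∈ S := fun a m hm =>
        Submodule.subset_span ⟨⟨Sum.inl a, ⟨m, hm⟩⟩, rfl⟩
      have hdown : ∀ (a : C.idx) (m : ℕ), m < C.len a →
          place 1 ((lowerLin (Fin.tail c) ^ m) (C.top a)) ∈ S := by
        intro a m hm
        have h1 := hA a (m + 1) (by omega)
        rw [pow_up] at h1
        have hne : ((C.len a : ℂ) * (c 0 : ℂ)) ≠ 0 :=
          mul_ne_zero (by exact_mod_cast (C.len_pos a).ne') (by exact_mod_cast hc 0)
        rw [← S.smul_mem_iff hne]
        rcases Nat.lt_or_ge (m + 1) (C.len a) with hlt | hge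
        · have h2 : (lowerLin c ^ m) (top' (Sum.inr ⟨a, by omega⟩)) ∈ S :=
            Submodule.subset_span ⟨⟨Sum.inr ⟨a, by omega⟩,
              ⟨m, by simp [len']; omega⟩⟩, rfl⟩
          have key := S.sub_mem h1 h2
          have hval : (lowerLin c ^ m) (top' (Sum.inr ⟨a, by omega⟩)) =
              place 0 ((lowerLin (Fin.tail c) ^ (m + 1)) (C.top a)) +
                ((m : ℂ) * (c 0 : ℂ) - ((C.len a - 1 : ℕ) : ℂ) * (c 0 : ℂ)) •
                  place 1 ((lowerLin (Fin.tail c) ^ m) (C.top a)) := by
            show (lowerLin c ^ m) (place 0 (lowerLin (Fin.tail c) (C.top a)) -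
              (((C.len a - 1 : ℕ) : ℂ) * (c 0 : ℂ)) • place 1 (C.top a)) = _
            rw [map_sub, map_smul, pow_down]
            rcases m with _ | m
            · simp [sub_eq_add_neg, neg_smul]
            · rw [pow_up, ← Module.End.mul_apply, ← Module.End.mul_apply, ← pow_succ, ← pow_succ]
              rw [add_sub_assoc, ← sub_smul]
              push_cast
              rfl
          rw [hval, add_sub_add_left_eq_sub, ← sub_smul] at key
          have hk : ((m + 1 : ℂ) * (c 0 : ℂ) -
              ((m : ℂ) * (c 0 : ℂ) - ((C.len a - 1 : ℕ) : ℂ) * (c 0 : ℂ))) =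
              (C.len a : ℂ) * (c 0 : ℂ) := by
            rw [Nat.cast_sub (C.len_pos a)]
            push_cast
            ring
          rwa [hk] at key
        · have hm' : m + 1 = C.len a := by omega
          rw [hm', C.top_end, map_zero, zero_add] at h1
          rwa [← hm', Nat.cast_succ]
      have hup : ∀ (a : C.idx) (m : ℕ), m < C.len a →
          place 0 ((lowerLin (Fin.tail c) ^ m) (C.top a)) ∈ S := by
        intro a m hm
        rcases m with _ | m
        · simpa using hA a 0 (by omega)
        · have h1 := hA a (m + 1) (by omega)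
          rw [pow_up] at h1
          simpa using S.sub_mem h1 (S.smul_mem ((m + 1 : ℂ) * (c 0 : ℂ)) (hdown a m (by omega)))
      intro f _
      have hf : f = place 0 (fun y => f (Fin.cons 0 y)) + place 1 (fun y => f (Fin.cons 1 y)) := by
        funext x
        simp only [Pi.add_apply, place_apply]
        rcases zmod2_cases (x 0) with h | h
        · rw [if_pos h, if_neg (by rw [h]; decide), add_zero, ← h, Fin.cons_self_tail]
        · rw [if_neg (by rw [h]; decide), if_pos h, zero_add, ← h, Fin.cons_self_tail]
      have hall : ∀ t : ZMod 2, ∀ g, place t g ∈ S := by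
        intro t g
        have hg : g ∈ Submodule.span ℂ
            (Set.range fun p : Σ a, Fin (C.len a) =>
              (lowerLin (Fin.tail c) ^ (p.2 : ℕ)) (C.top p.1)) := C.spans (Submodule.mem_top)
        induction hg using Submodule.span_induction with
        | mem y hy =>
            obtain ⟨⟨a, m⟩, rfl⟩ := hy
            rcases zmod2_cases t with rfl | rfl
            · exact hup a m m.2
            · exact hdown a m m.2
        | zero => simp
        | add y z _ _ hy hz => rw [map_add]; exact S.add_mem hy hz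
        | smul r y _ hy => rw [map_smul]; exact S.smul_mem r hy
      rw [hf]
      exact S.add_mem (hall 0 _) (hall 1 _)
    · have hs : ∑ a : {a : C.idx // 2 ≤ C.len a}, (C.len a.1 - 1) =
          ∑ a, (C.len a - 1) := by
        rw [← Finset.sum_subtype ((Finset.univ : Finset C.idx).filter fun a => 2 ≤ C.len a)
          (by simp) fun a => C.len a - 1]
        refine Finset.sum_subset (Finset.subset_univ _) fun a _ ha => ?_
        simp only [Finset.mem_filter, Finset.mem_univ, true_and, not_le] at ha
        omega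
      simp only [len', Fintype.sum_sum_type, Sum.elim_inl, Sum.elim_inr, hs,
        ← Finset.sum_add_distrib]
      rw [Finset.sum_congr rfl (g := fun a => C.len a * 2) fun a _ => by
        have := C.len_pos a; omega, ← Finset.sum_mul, C.total, pow_succ]

/-- The basis of all chain vectors. -/
noncomputable def Chains.basis {k : ℕ} {c : Fin k → ℝ} (C : Chains c) :
    Module.Basis (Σ a, Fin (C.len a)) ℂ (Bits (Fin k) → ℂ) :=
  basisOfTopLeSpanOfCardEqFinrank _ C.spans (by simp [sum_card_eq C, C.total])

theorem Chains.basis_apply {k : ℕ} {c : Fin k → ℝ} (C : Chains c) (p : Σ a, Fin (C.len a)) :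
    C.basis p = (lowerLin c ^ (p.2 : ℕ)) (C.top p.1) := by
  simp [Chains.basis]

theorem diagonal_ones_of_level {k j : ℕ} {f : Bits (Fin k) → ℂ} (hf : f ∈ levelSub k j) :
    (Matrix.diagonal fun x => (ones x : ℂ)) *ᵥ f = (j : ℂ) • f := by
  funext x
  rw [Matrix.mulVec_diagonal, Pi.smul_apply, smul_eq_mul]
  by_cases hx : ones x = j
  · rw [hx]
  · rw [hf x hx, mul_zero, mul_zero]

/-- Subspaces invariant under the centraliser of the lowering sum are graded. -/
theorem ones_mem {k : ℕ} (c : Fin k → ℝ) (hc : ∀ i, c i ≠ 0)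
    (Y : Submodule ℂ (Bits (Fin k) → ℂ))
    (hY : ∀ Φ : Matrix (Bits (Fin k)) (Bits (Fin k)) ℂ,
      Commute Φ (lowerSum c) → ∀ y ∈ Y, Φ *ᵥ y ∈ Y)
    (y : Bits (Fin k) → ℂ) (hy : y ∈ Y) :
    (Matrix.diagonal fun x => (ones x : ℂ)) *ᵥ y ∈ Y := by
  classical
  obtain ⟨C⟩ := exists_chains c hc
  let b := C.basis
  have hT : ∀ v ∈ Y, lowerLin c v ∈ Y := fun v hv => hY _ (Commute.refl _) v hv
  have hTpow : ∀ (n : ℕ) (v : Bits (Fin k) → ℂ), v ∈ Y → (lowerLin c ^ n) v ∈ Y := by
    intro n
    induction n with
    | zero => exact fun v hv => hv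
    | succ n ih => exact fun v hv => by rw [pow_succ', Module.End.mul_apply]; exact hT _ (ih v hv)
  let E : C.idx → (Bits (Fin k) → ℂ) →ₗ[ℂ] (Bits (Fin k) → ℂ) := fun a =>
    b.constr ℂ fun p => if p.1 = a then b p else 0
  have hnext : ∀ p : Σ a, Fin (C.len a), lowerLin c (b p) =
      if h : (p.2 : ℕ) + 1 < C.len p.1 then b ⟨p.1, ⟨(p.2 : ℕ) + 1, h⟩⟩ else 0 := by
    intro p
    rw [C.basis_apply, ← Module.End.mul_apply, ← pow_succ']
    split_ifs with h
    · rw [C.basis_apply]
    · have : (p.2 : ℕ) + 1 = C.len p.1 := by have := p.2.2; omega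
      rw [this, C.top_end]
  have hE : ∀ a v, v ∈ Y → E a v ∈ Y := by
    intro a v hv
    have hcomm : (E a).comp (lowerLin c) = (lowerLin c).comp (E a) := by
      refine b.ext fun p => ?_
      have hEb : ∀ q, E a (b q) = if q.1 = a then b q else 0 := fun q => b.constr_basis _ _ q
      rw [LinearMap.comp_apply, LinearMap.comp_apply, hEb, apply_ite (lowerLin c), map_zero,
        hnext, apply_dite (E a), map_zero]
      split_ifs with h1 h2
      · rw [hEb, if_pos h2]
      · rw [hEb, if_neg h2]
      all_goals rfl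
    have := hY (LinearMap.toMatrix' (E a)) (by
      rw [Commute, SemiconjBy,
        show lowerSum c = LinearMap.toMatrix' (lowerLin c) from
          (LinearMap.toMatrix'_toLin' _).symm,
        ← LinearMap.toMatrix'_comp, ← LinearMap.toMatrix'_comp, hcomm]) v hv
    rwa [← Matrix.toLin'_apply, Matrix.toLin'_toMatrix'] at this
  have hsum : y = ∑ p, b.repr y p • b p := (b.sum_repr y).symm
  have htail : ∀ p : Σ a, Fin (C.len a), b.repr y p ≠ 0 → b p ∈ Y := by
    rintro ⟨a, m⟩ hne
    let w := E a y
    have hw : w ∈ Y := hE a y hy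
    let r : ℕ → ℂ := fun l => if h : l < C.len a then b.repr y ⟨a, ⟨l, h⟩⟩ else 0
    have hwsum : w = ∑ l ∈ Finset.range (C.len a), r l • (lowerLin c ^ l) (C.top a) := by
      show E a y = _
      conv_lhs => rw [hsum, map_sum]
      simp only [map_smul, E, b.constr_basis, smul_ite, smul_zero]
      rw [Fintype.sum_sigma, Finset.sum_eq_single a (fun a' _ hne => Finset.sum_eq_zero
        fun l _ => if_neg hne) (by simp), Finset.sum_range]
      refine Finset.sum_congr rfl fun l _ => ?_
      simp [r, l.2, b, C.basis_apply]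
    have hrm : r m ≠ 0 := by simpa [r, m.2] using hne
    have hex : ∃ l, r l ≠ 0 := ⟨m, hrm⟩
    have hstep : ∀ d l, Nat.find hex ≤ l → C.len a ≤ l + d →
        (lowerLin c ^ l) (C.top a) ∈ Y := by
      intro d
      induction d with
      | zero =>
          intro l _ hl
          have : (lowerLin c ^ l) (C.top a) = 0 := by
            rw [show l = l - C.len a + C.len a by omega, pow_add, Module.End.mul_apply,
              C.top_end, map_zero]
          rw [this]; exact Y.zero_mem
      | succ d ih =>
          intro l hl0 hl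
          by_cases hlen : C.len a ≤ l + d
          · exact ih l hl0 hlen
          have h1 : (lowerLin c ^ (l - Nat.find hex)) w ∈ Y := hTpow _ w hw
          rw [hwsum, map_sum] at h1
          have hl0r : Nat.find hex ∈ Finset.range (C.len a) := Finset.mem_range.2 (by omega)
          rw [← Finset.add_sum_erase _ _ hl0r] at h1
          have h2 : ∑ x ∈ (Finset.range (C.len a)).erase (Nat.find hex),
              (lowerLin c ^ (l - Nat.find hex)) (r x • (lowerLin c ^ x) (C.top a)) ∈ Y := by
            refine Y.sum_mem fun x hx => ?_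
            rw [map_smul]
            by_cases hrx : r x = 0
            · rw [hrx, zero_smul]; exact Y.zero_mem
            · have := Nat.find_min' hex hrx
              have := Finset.ne_of_mem_erase hx
              rw [← Module.End.mul_apply, ← pow_add]
              exact Y.smul_mem _ (ih _ (by omega) (by omega))
          have h3 := Y.sub_mem h1 h2
          rw [add_sub_cancel_right, map_smul, ← Module.End.mul_apply, ← pow_add,
            show l - Nat.find hex + Nat.find hex = l by omega] at h3
          exact (Y.smul_mem_iff (Nat.find_spec hex)).1 h3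
    rw [C.basis_apply]
    exact hstep (C.len a) m (Nat.find_min' hex hrm) (by omega)
  rw [hsum, Matrix.mulVec_sum]
  refine Y.sum_mem fun p _ => ?_
  rw [Matrix.mulVec_smul]
  by_cases hp : b.repr y p = 0
  · rw [hp, zero_smul]; exact Y.zero_mem
  · refine Y.smul_mem _ ?_
    rw [show b p = (lowerLin c ^ (p.2 : ℕ)) (C.top p.1) from C.basis_apply p,
      diagonal_ones_of_level (pow_mem_level c (C.top_mem p.1) p.2), ← C.basis_apply p]
    exact Y.smul_mem _ (htail p hp)

theorem card_level (k j : ℕ) :
    Fintype.card {x : Bits (Fin k) // ones x = j} = Nat.choose k j := by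
  classical
  rw [← Fintype.card_fin k, ← Fintype.card_finset_len, Fintype.card_fin]
  have hones : ∀ x : Bits (Fin k), ones x = (Finset.univ.filter fun i => x i = 1).card := by
    intro x
    rw [Finset.card_filter]
    refine Finset.sum_congr rfl fun i _ => ?_
    rcases zmod2_cases (x i) with h | h <;> simp [h] <;> decide
  refine Fintype.card_congr
    { toFun := fun x => ⟨Finset.univ.filter fun i => x.1 i = 1, by rw [← hones, x.2]⟩
      invFun := fun s => ⟨fun i => if i ∈ s.1 then 1 else 0, by
        rw [hones]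
        exact Eq.trans (congrArg Finset.card (by ext i; simp)) s.2⟩
      left_inv := fun x => ?_
      right_inv := fun s => ?_ }
  · apply Subtype.ext
    funext i
    rcases zmod2_cases (x.1 i) with h | h <;> simp [h]
  · apply Subtype.ext
    ext i
    simp

theorem finrank_levelSub (k j : ℕ) :
    Module.finrank ℂ (levelSub k j) ≤ Nat.choose k j := by
  classical
  let R : levelSub k j →ₗ[ℂ] ({x : Bits (Fin k) // ones x = j} → ℂ) :=
    { toFun := fun f x => f.1 x.1
      map_add' := fun _ _ => rfl
      map_smul' := fun _ _ => rfl }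
  have hR : Function.Injective R := by
    intro f g h
    apply Subtype.ext
    funext x
    by_cases hx : ones x = j
    · exact congrFun h ⟨x, hx⟩
    · rw [f.2 x hx, g.2 x hx]
  refine (LinearMap.finrank_le_finrank_of_injective hR).trans ?_
  rw [Module.finrank_pi, card_level]

/-- The kernel of the lowering sum is at most as large as the middle level. -/
theorem finrank_ker_lowerSum {k : ℕ} (c : Fin k → ℝ) (hc : ∀ i, c i ≠ 0) :
    Module.finrank ℂ (LinearMap.ker (lowerSum c).mulVecLin) ≤ Nat.choose k (k / 2) := by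
  classical
  obtain ⟨C⟩ := exists_chains c hc
  let b := C.basis
  let last : C.idx → Σ a, Fin (C.len a) := fun a =>
    ⟨a, ⟨C.len a - 1, by have := C.len_pos a; omega⟩⟩
  let mid : C.idx → Σ a, Fin (C.len a) := fun a =>
    ⟨a, ⟨k / 2 - C.lev a, by have := C.symm a; have := C.len_pos a; omega⟩⟩
  have hker : LinearMap.ker (lowerSum c).mulVecLin ≤
      Submodule.span ℂ (Set.range fun a => b (last a)) := by
    intro f hf
    have hf0 : lowerLin c f = 0 := hf
    rw [← b.sum_repr f]
    refine Submodule.sum_mem _ fun p _ => ?_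
    by_cases h : (p.2 : ℕ) + 1 < C.len p.1
    · suffices b.repr f p = 0 by rw [this, zero_smul]; exact Submodule.zero_mem _
      have h1 : (lowerLin c) (∑ q, b.repr f q • b q) = 0 := by rw [b.sum_repr]; exact hf0
      rw [map_sum] at h1
      have h2 := congrArg (fun v => b.repr v ⟨p.1, ⟨(p.2 : ℕ) + 1, h⟩⟩) h1
      simp only [map_sum, map_smul, map_zero, Finsupp.zero_apply, Finsupp.finsetSum_apply,
        Finsupp.smul_apply, smul_eq_mul] at h2
      rw [Finset.sum_eq_single p] at h2
      · rw [show (lowerLin c) (b p) = b ⟨p.1, ⟨(p.2 : ℕ) + 1, h⟩⟩ by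
          rw [C.basis_apply, C.basis_apply, ← Module.End.mul_apply, ← pow_succ'], b.repr_self,
          Finsupp.single_eq_same, mul_one] at h2
        exact h2
      · rintro ⟨a, l⟩ _ hq
        rw [C.basis_apply, ← Module.End.mul_apply, ← pow_succ']
        by_cases hl : (l : ℕ) + 1 < C.len a
        · rw [show (lowerLin c ^ ((l : ℕ) + 1)) (C.top a) = b ⟨a, ⟨(l : ℕ) + 1, hl⟩⟩ from
            (C.basis_apply ⟨a, ⟨(l : ℕ) + 1, hl⟩⟩).symm, b.repr_self,
            Finsupp.single_eq_of_ne, mul_zero]
          intro he
          obtain ⟨p1, p2⟩ := p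
          simp only [Sigma.mk.inj_iff] at he
          obtain ⟨rfl, he⟩ := he
          apply hq
          have := congrArg Fin.val (eq_of_heq he)
          congr 1
          exact Fin.ext (by simp at this; omega)
        · have : (l : ℕ) + 1 = C.len a := by have := l.2; omega
          simp [this, C.top_end]
      · simp
    · refine Submodule.smul_mem _ _ (Submodule.subset_span ⟨p.1, ?_⟩)
      show b (last p.1) = b p
      congr 1
      exact Sigma.ext rfl (heq_of_eq (Fin.ext (by have := p.2.2; simp [last]; omega)))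
  have hmid : ∀ a, b (mid a) ∈ levelSub k (k / 2) := by
    intro a
    rw [C.basis_apply]
    have := pow_mem_level c (C.top_mem a) (k / 2 - C.lev a)
    rwa [show C.lev a + (k / 2 - C.lev a) = k / 2 by
      have := C.symm a; have := C.len_pos a; omega] at this
  have hcard : Fintype.card C.idx ≤ Nat.choose k (k / 2) := by
    have hli : LinearIndependent ℂ fun a => (⟨b (mid a), hmid a⟩ : levelSub k (k / 2)) :=
      LinearIndependent.of_comp (levelSub k (k / 2)).subtype
        (b.linearIndependent.comp mid fun a a' h => congrArg Sigma.fst h)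
    exact hli.fintype_card_le_finrank.trans (finrank_levelSub k _)
  exact (Submodule.finrank_mono hker).trans ((finrank_range_le_card _).trans hcard)

end Vale.Agent.P131
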