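import Mathlib

/-!
Finite Pauli matrices on finitely many sites.
-/

namespace Vale.Agent.P131

open Matrix Finset

/-- Bit configurations on a set of sites. -/
abbrev Bits (α : Type) : Type := α → ZMod 2

/-- The nontrivial character of the field with two elements. -/
def chi (t : ZMod 2) : ℂ := if t = 0 then 1 else -1

theorem zmod2_cases (t : ZMod 2) : t = 0 ∨ t = 1 := by revert t; decide

theorem chi_zero : chi 0 = 1 := by simp [chi]

theorem chi_one : chi 1 = -1 := by simp [chi]

theorem chi_add (s t : ZMod 2) : chi (s + t) = chi s * chi t := by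
  have h : (1 : ZMod 2) + 1 = 0 := by decide
  rcases zmod2_cases s with rfl | rfl <;> rcases zmod2_cases t with rfl | rfl <;>
    simp [chi_zero, chi_one, h]

theorem chi_sq (t : ZMod 2) : chi t * chi t = 1 := by
  rcases zmod2_cases t with rfl | rfl <;> simp [chi_zero, chi_one]

theorem chi_star (t : ZMod 2) : star (chi t) = chi t := by
  rcases zmod2_cases t with rfl | rfl <;> simp [chi_zero, chi_one]

theorem norm_chi (t : ZMod 2) : ‖chi t‖ = 1 := by
  rcases zmod2_cases t with rfl | rfl <;> simp [chi_zero, chi_one]

theorem bits_add_self {α : Type} (x : Bits α) : x + x = 0 := by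
  funext i
  exact CharTwo.add_self_eq_zero (x i)

variable {α : Type} [Fintype α]

/-- The dot product of two bit configurations. -/
def dot (x y : Bits α) : ZMod 2 := ∑ i, x i * y i

theorem dot_add_right (x y z : Bits α) : dot x (y + z) = dot x y + dot x z := by
  simp [dot, mul_add, sum_add_distrib]

theorem dot_add_left (x y z : Bits α) : dot (x + y) z = dot x z + dot y z := by
  simp [dot, add_mul, sum_add_distrib]

theorem dot_comm (x y : Bits α) : dot x y = dot y x := by
  simp [dot, mul_comm]

theorem dot_zero_left (y : Bits α) : dot 0 y = 0 := by simp [dot]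

theorem dot_zero_right (y : Bits α) : dot y 0 = 0 := by simp [dot]

variable [DecidableEq α]

theorem dot_single_left (i : α) (y : Bits α) : dot (Pi.single i 1) y = y i := by
  simp [dot, Pi.single_apply]

/-- The Pauli matrix: flip by `a` after the sign of `b`. -/
def pauli (a b : Bits α) : Matrix (Bits α) (Bits α) ℂ :=
  of fun x y => if x = y + a then chi (dot b y) else 0

theorem pauli_apply (a b x y : Bits α) :
    pauli a b x y = if x = y + a then chi (dot b y) else 0 := rfl

theorem pauli_zero : pauli (0 : Bits α) 0 = 1 := by
  ext x y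
  simp [pauli_apply, dot_zero_left, chi_zero, Matrix.one_apply]

theorem pauli_mul (a b a' b' : Bits α) :
    pauli a b * pauli a' b' = chi (dot b a') • pauli (a + a') (b + b') := by
  ext x y
  rw [Matrix.mul_apply, Finset.sum_eq_single (y + a')]
  · simp only [pauli_apply, Matrix.smul_apply, smul_eq_mul, if_true]
    rw [dot_add_right, chi_add, dot_add_left b b' y, chi_add,
      show y + a' + a = y + (a + a') by abel]
    split_ifs <;> ring
  · intro z _ hz
    simp [pauli_apply, hz]
  · intro h
    exact absurd (Finset.mem_univ _) h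

/-- The unit matrix at site `i` lowering a zero bit to a one bit. -/
def lowerMat (i : α) : Matrix (Bits α) (Bits α) ℂ :=
  of fun x y => if x = y + Pi.single i 1 ∧ y i = 0 then 1 else 0

/-- The unit matrix at site `i` raising a one bit to a zero bit. -/
def raiseMat (i : α) : Matrix (Bits α) (Bits α) ℂ :=
  of fun x y => if x = y + Pi.single i 1 ∧ y i = 1 then 1 else 0

/-- The sign matrix at site `i`. -/
def signMat (i : α) : Matrix (Bits α) (Bits α) ℂ := pauli 0 (Pi.single i 1)

theorem lowerMat_eq (i : α) : lowerMat i =
    (1 / 2 : ℂ) • (pauli (Pi.single i 1) 0 + pauli (Pi.single i 1) (Pi.single i 1)) := by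
  ext x y
  simp only [lowerMat, of_apply, Matrix.smul_apply, Matrix.add_apply, pauli_apply, smul_eq_mul,
    dot_zero_left, chi_zero, dot_single_left]
  rcases zmod2_cases (y i) with h | h <;> by_cases hx : x = y + Pi.single i 1 <;>
    simp [h, hx, chi_zero, chi_one]; norm_num

theorem raiseMat_eq (i : α) : raiseMat i =
    (1 / 2 : ℂ) • (pauli (Pi.single i 1) 0 - pauli (Pi.single i 1) (Pi.single i 1)) := by
  ext x y
  simp only [raiseMat, of_apply, Matrix.smul_apply, Matrix.sub_apply, pauli_apply, smul_eq_mul,
    dot_zero_left, chi_zero, dot_single_left]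
  rcases zmod2_cases (y i) with h | h <;> by_cases hx : x = y + Pi.single i 1 <;>
    simp [h, hx, chi_zero, chi_one]; norm_num

/-- The weighted sum of all lowering matrices. -/
def lowerSum (c : α → ℝ) : Matrix (Bits α) (Bits α) ℂ := ∑ i, (c i : ℂ) • lowerMat i

/-- The sum of squares of the entries. -/
noncomputable def hsq {m n : Type} [Fintype m] [Fintype n] (M : Matrix m n ℂ) : ℝ := ∑ x, ∑ y, ‖M x y‖ ^ 2

end Vale.Agent.P131
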