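import Mathlib
import Vale.Agent.P131.Mat

/-!
The space of square summable families on Pauli strings, with left and right translations.
-/

namespace Vale.Agent.P131

open scoped ENNReal InnerProductSpace
open Finset

/-- Finitely supported Pauli strings. -/
abbrev Str : Type := ℕ →₀ ZMod 2 × ZMod 2

/-- The form which gives the sign of a product of two strings. -/
def bet (s t : Str) : ZMod 2 := s.sum fun j p => p.2 * (t j).1

theorem bet_add_right (s t u : Str) : bet s (t + u) = bet s t + bet s u := by
  simp [bet, Finsupp.sum, mul_add, sum_add_distrib]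

theorem bet_add_left (s t u : Str) : bet (s + t) u = bet s u + bet t u := by
  simp only [bet]
  exact Finsupp.sum_add_index' (fun j => by simp) (fun j p q => by simp [add_mul])

theorem bet_zero_left (t : Str) : bet 0 t = 0 := by simp [bet]

theorem bet_zero_right (t : Str) : bet t 0 = 0 := by simp [bet, Finsupp.sum]

theorem bet_single_left (j : ℕ) (p : ZMod 2 × ZMod 2) (t : Str) :
    bet (Finsupp.single j p) t = p.2 * (t j).1 := by
  simp only [bet]
  exact Finsupp.sum_single_index (by simp)

theorem bet_eq_zero_of_left {s t : Str} (h : ∀ j, (s j).2 = 0 ∨ (t j).1 = 0) : bet s t = 0 := by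
  refine Finset.sum_eq_zero fun j _ => ?_
  rcases h j with h | h <;> simp [h]

theorem str_add_self (s : Str) : s + s = 0 := by
  ext j <;> simp [CharTwo.add_self_eq_zero]

theorem str_add_cancel (u s : Str) : u + s + s = u := by
  rw [add_assoc, str_add_self, add_zero]

/-- The Hilbert space of square summable families on Pauli strings. -/
abbrev Hil : Type := lp (fun _ : Str => ℂ) 2

theorem hasSum_sq (f : Hil) : HasSum (fun u => ‖f u‖ ^ 2) (‖f‖ ^ 2) := by
  simpa using lp.hasSum_norm (p := 2) (by norm_num) f

/-- Translation by a string, with a unimodular factor. -/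
noncomputable def shift (s : Str) (g : Str → ℂ) (hg : ∀ u, ‖g u‖ = 1) : Hil →L[ℂ] Hil :=
  LinearMap.mkContinuous
    { toFun := fun f => ⟨fun u => g u * f (u + s), memℓp_gen (by
        have h := (hasSum_sq f).summable.comp_injective (add_left_injective s)
        simpa [norm_mul, hg, Function.comp_def] using h)⟩
      map_add' := fun f f' => by ext u; exact mul_add _ _ _
      map_smul' := fun c f => by ext u; exact mul_left_comm _ _ _ }
    1 fun f => by
      rw [one_mul]
      refine le_of_pow_le_pow_left₀ two_ne_zero (norm_nonneg _) (le_of_eq ?_)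
      refine (hasSum_sq _).unique ?_
      have h := (Equiv.addRight s).hasSum_iff.2 (hasSum_sq f)
      simpa [norm_mul, hg, Function.comp_def] using h

theorem shift_apply (s : Str) (g : Str → ℂ) (hg : ∀ u, ‖g u‖ = 1) (f : Hil) (u : Str) :
    shift s g hg f u = g u * f (u + s) := rfl

theorem norm_shift_apply (s : Str) (g : Str → ℂ) (hg : ∀ u, ‖g u‖ = 1) (f : Hil) :
    ‖shift s g hg f‖ = ‖f‖ := by
  refine (sq_eq_sq₀ (norm_nonneg _) (norm_nonneg _)).1 ((hasSum_sq _).unique ?_)
  have h := (Equiv.addRight s).hasSum_iff.2 (hasSum_sq f)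
  simpa [shift_apply, norm_mul, hg, Function.comp_def] using h

/-- Left translation. -/
noncomputable def lOp (s : Str) : Hil →L[ℂ] Hil :=
  shift s (fun u => chi (bet s (u + s))) fun _ => norm_chi _

/-- Right translation. -/
noncomputable def rOp (s : Str) : Hil →L[ℂ] Hil :=
  shift s (fun u => chi (bet (u + s) s)) fun _ => norm_chi _

theorem lOp_apply (s : Str) (f : Hil) (u : Str) :
    lOp s f u = chi (bet s (u + s)) * f (u + s) := rfl

theorem rOp_apply (s : Str) (f : Hil) (u : Str) :
    rOp s f u = chi (bet (u + s) s) * f (u + s) := rfl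

theorem two_eq_zero : (2 : ZMod 2) = 0 := by decide

theorem lOp_mul (s t : Str) : lOp s * lOp t = chi (bet s t) • lOp (s + t) := by
  ext f u
  change lOp s (lOp t f) u = chi (bet s t) * lOp (s + t) f u
  simp only [lOp_apply, add_assoc]
  rw [← mul_assoc, ← mul_assoc, ← chi_add, ← chi_add]
  congr 2
  simp only [bet_add_right, bet_add_left]
  linear_combination (-bet s t) * two_eq_zero

theorem rOp_mul (s t : Str) : rOp s * rOp t = chi (bet t s) • rOp (t + s) := by
  ext f u
  change rOp s (rOp t f) u = chi (bet t s) * rOp (t + s) f u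
  simp only [rOp_apply]
  rw [← mul_assoc, ← mul_assoc, ← chi_add, ← chi_add, show u + s + t = u + (t + s) by abel]
  congr 2
  simp only [bet_add_right, bet_add_left]
  linear_combination (-bet t s) * two_eq_zero

theorem lOp_rOp_commute (s t : Str) : Commute (lOp s) (rOp t) := by
  ext f u
  change lOp s (rOp t f) u = rOp t (lOp s f) u
  simp only [lOp_apply, rOp_apply]
  rw [← mul_assoc, ← mul_assoc, ← chi_add, ← chi_add, show u + t + s = u + s + t by abel]
  congr 2
  simp only [bet_add_right, bet_add_left]
  abel

theorem lOp_zero : lOp 0 = 1 := by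
  ext f u
  simp [lOp_apply, bet_zero_left, chi_zero]

theorem rOp_zero : rOp 0 = 1 := by
  ext f u
  simp [rOp_apply, bet_zero_right, chi_zero]

theorem lOp_comm {s t : Str} (h : bet s t = bet t s) : Commute (lOp s) (lOp t) := by
  rw [commute_iff_eq, lOp_mul, lOp_mul, h, add_comm]

theorem norm_lOp_le (s : Str) : ‖lOp s‖ ≤ 1 :=
  ContinuousLinearMap.opNorm_le_bound _ zero_le_one fun f => by
    rw [one_mul]
    exact (norm_shift_apply s _ _ f).le

theorem norm_rOp_le (s : Str) : ‖rOp s‖ ≤ 1 :=
  ContinuousLinearMap.opNorm_le_bound _ zero_le_one fun f => by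
    rw [one_mul]
    exact (norm_shift_apply s _ _ f).le

theorem adjoint_shift {U : Hil →L[ℂ] Hil} (hn : ∀ f, ‖U f‖ = ‖f‖) {t : ℂ} (hU : U * U = t • 1)
    (ht : t * t = 1) : star U = t • U := by
  rw [ContinuousLinearMap.star_eq_adjoint, eq_comm, ContinuousLinearMap.eq_adjoint_iff]
  intro x y
  let V : Hil →ₗᵢ[ℂ] Hil := ⟨U.toLinearMap, hn⟩
  have hy : x = t • U (U x) := by
    have h := DFunLike.congr_fun hU x
    change U (U x) = t • x at h
    rw [h, smul_smul, ht, one_smul]
  conv_rhs => rw [hy]
  rw [← map_smul]
  exact (V.inner_map_map _ _).symm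

theorem lOp_star (s : Str) : star (lOp s) = chi (bet s s) • lOp s :=
  adjoint_shift (U := lOp s) (norm_shift_apply s _ _) (by rw [lOp_mul, str_add_self, lOp_zero])
    (chi_sq _)

theorem rOp_star (s : Str) : star (rOp s) = chi (bet s s) • rOp s :=
  adjoint_shift (U := rOp s) (norm_shift_apply s _ _) (by rw [rOp_mul, str_add_self, rOp_zero])
    (chi_sq _)

/-- The unit vector at a string. -/
noncomputable def evec (s : Str) : Hil := lp.single 2 s 1

theorem evec_apply (s u : Str) : evec s u = if u = s then 1 else 0 := by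
  simp [evec, Pi.single_apply]

theorem evec_inner (s : Str) (f : Hil) : ⟪evec s, f⟫_ℂ = f s := by
  rw [evec, lp.inner_single_left]
  simp

theorem norm_evec (s : Str) : ‖evec s‖ = 1 := by
  simp [evec, lp.norm_single]

theorem lOp_evec (s : Str) : lOp s (evec 0) = evec s := by
  ext u
  rw [lOp_apply, evec_apply, evec_apply]
  rcases eq_or_ne u s with rfl | h
  · simp [str_add_self, bet_zero_right, chi_zero]
  · have h' : u + s ≠ 0 := fun h0 => h (by simpa [h0, str_add_cancel] using (str_add_cancel u s).symm)
    simp [h, h']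

theorem rOp_evec (s : Str) : rOp s (evec 0) = evec s := by
  ext u
  rw [rOp_apply, evec_apply, evec_apply]
  rcases eq_or_ne u s with rfl | h
  · simp [str_add_self, bet_zero_left, chi_zero]
  · have h' : u + s ≠ 0 := fun h0 => h (by simpa [h0, str_add_cancel] using (str_add_cancel u s).symm)
    simp [h, h']

theorem ext_evec {A B : Hil →L[ℂ] Hil} (h : ∀ s, A (evec s) = B (evec s)) : A = B := by
  refine lp.ext_continuousLinearMap (ENNReal.ofNat_ne_top (n := 2)) fun s => ?_
  apply ContinuousLinearMap.ext_ring
  exact h s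

end Vale.Agent.P131
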