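import Mathlib
import Vale.Agent.P131.Mat
import Vale.Agent.P131.Pauli

/-!
Finite stages: embeddings of bit matrices as left and right multiplications.
-/

namespace Vale.Agent.P131

open Matrix Finset

variable {α β : Type} [Fintype α] [DecidableEq α] [Fintype β] [DecidableEq β]

/-- The string placed on the sites given by `f`. -/
noncomputable def emb (f : α → ℕ) (a b : Bits α) : Str := ∑ i, Finsupp.single (f i) (a i, b i)

/-- The coefficient of a Pauli matrix. -/
noncomputable def coef (a b : Bits α) : Matrix (Bits α) (Bits α) ℂ →ₗ[ℂ] ℂ where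
  toFun M := ((2 : ℂ) ^ Fintype.card α)⁻¹ * ∑ y, chi (dot b y) * M (y + a) y
  map_add' M M' := by simp [mul_add, sum_add_distrib]
  map_smul' r M := by
    simp only [Matrix.smul_apply, smul_eq_mul, RingHom.id_apply, mul_sum]
    exact sum_congr rfl fun y _ => by ring

/-- A stage as left multiplications. -/
noncomputable def piRep (f : α → ℕ) : Matrix (Bits α) (Bits α) ℂ →ₗ[ℂ] Hil →L[ℂ] Hil :=
  ∑ p : Bits α × Bits α, (coef p.1 p.2).smulRight (lOp (emb f p.1 p.2))

/-- A stage as right multiplications. -/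
noncomputable def rhoRep (f : α → ℕ) : Matrix (Bits α) (Bits α) ℂ →ₗ[ℂ] Hil →L[ℂ] Hil :=
  ∑ p : Bits α × Bits α, (coef p.1 p.2).smulRight (rOp (emb f p.1 p.2))

/-- A matrix acting as the identity on further sites. -/
def liftMat (A : Matrix (Bits α) (Bits α) ℂ) : Matrix (Bits (α ⊕ β)) (Bits (α ⊕ β)) ℂ :=
  of fun p q => if p ∘ Sum.inr = q ∘ Sum.inr then A (p ∘ Sum.inl) (q ∘ Sum.inl) else 0

/-- A diagonal block with respect to the configuration on the further sites. -/
def blockMat (Q : Matrix (Bits (α ⊕ β)) (Bits (α ⊕ β)) ℂ) (x : Bits β) :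
    Matrix (Bits α) (Bits α) ℂ :=
  Q.submatrix (fun u => Sum.elim u x) (fun u => Sum.elim u x)

/-- The compression of an operator to a stage. -/
noncomputable def compress (f : α → ℕ) (P : Hil →L[ℂ] Hil) : Matrix (Bits α) (Bits α) ℂ :=
  ∑ p : Bits α × Bits α, P (evec 0) (emb f p.1 p.2) • pauli p.1 p.2

/-- The sites of the stage `k + m`, split as the first `k` and the next `m`. -/
def extSite (k m : ℕ) : Fin k ⊕ Fin m → ℕ := Sum.elim (fun i => i) (fun i => k + i)

end Vale.Agent.P131
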