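import Mathlib
import Vale.Agent.P131.Defs

/-!
The rapidly decreasing coefficients.
-/

namespace Vale.Agent.P131

open Finset

/-- The ratio for step `j`, given all earlier coefficients. -/
private noncomputable def stepRatio (G : (k : ℕ) → (Fin k → ℝ) → ℝ) (j : ℕ) (v : Fin j → ℝ) :
    ℝ :=
  min (1 / 2) ((univ : Finset (Fin (j + 1))).inf' univ_nonempty
    (fun k => G k (fun i => v ⟨i, by omega⟩)) / (4 * 7 ^ j * 2 ^ (j + 1)))

/-- The coefficients. -/
private noncomputable def coeffSeq (G : (k : ℕ) → (Fin k → ℝ) → ℝ) : ℕ → ℝ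
  | 0 => 1
  | n + 1 => stepRatio G (n + 1) (fun i : Fin (n + 1) => coeffSeq G i) * coeffSeq G n
termination_by n => n
decreasing_by all_goals omega

theorem exists_coefficients (G : (k : ℕ) → (Fin k → ℝ) → ℝ) (hG : ∀ k v, 0 < G k v) :
    ∃ c θ : ℕ → ℝ, (∀ j, 0 < c j) ∧ Summable c ∧ ∑' j, c j ≤ 2 ∧
      (∀ a j, a < j → c j / c a ≤ θ j) ∧ (∀ j, θ j ≤ 1) ∧
      ∀ k (F : Finset ℕ), (∀ l ∈ F, k ≤ l) → (∀ l ∈ F, 1 ≤ l) →
        4 * ∑ l ∈ F, (7 : ℝ) ^ (F.filter (· < l)).card * θ l ≤ G k (fun i => c i) := by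
  set c := coeffSeq G
  set θ : ℕ → ℝ := fun j => stepRatio G j fun i => c i with hθ
  have hc0 : c 0 = 1 := by simp [c, coeffSeq]
  have hsucc : ∀ n, c (n + 1) = θ (n + 1) * c n := fun n => by simp [c, θ, coeffSeq]
  have hpos : ∀ j, 0 < θ j := fun j =>
    lt_min (by norm_num) (div_pos ((Finset.lt_inf'_iff _).2 fun k _ => hG _ _) (by positivity))
  have hhalf : ∀ j, θ j ≤ 1 / 2 := fun j => min_le_left _ _
  have hcpos : ∀ j, 0 < c j := fun j => by
    induction j with
    | zero => simp [hc0]
    | succ n ih => rw [hsucc]; exact mul_pos (hpos _) ih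
  have hanti : Antitone c := antitone_nat_of_succ_le fun n => by
    rw [hsucc]
    exact mul_le_of_le_one_left (hcpos n).le ((hhalf _).trans (by norm_num))
  have hgeo : ∀ j, c j ≤ (1 / 2) ^ j := fun j => by
    induction j with
    | zero => simp [hc0]
    | succ n ih =>
      rw [hsucc, pow_succ']
      exact mul_le_mul (hhalf _) ih (hcpos n).le (by norm_num)
  have hsum : Summable c :=
    Summable.of_nonneg_of_le (fun j => (hcpos j).le) hgeo summable_geometric_two
  refine ⟨c, θ, hcpos, hsum, (hsum.tsum_le_tsum hgeo summable_geometric_two).trans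
    tsum_geometric_two.le, ?_, fun j => (hhalf j).trans (by norm_num), ?_⟩
  · intro a j haj
    obtain ⟨n, rfl⟩ : ∃ n, j = n + 1 := ⟨j - 1, by omega⟩
    rw [div_le_iff₀ (hcpos a), hsucc]
    exact mul_le_mul_of_nonneg_left (hanti (by omega)) (hpos _).le
  · intro k F hk _
    have hterm : ∀ l ∈ F, 4 * ((7 : ℝ) ^ (F.filter (· < l)).card * θ l) ≤
        G k (fun i => c i) / 2 * (1 / 2) ^ l := by
      intro l hl
      have hcard : (F.filter (· < l)).card ≤ l := by
        refine (Finset.card_le_card ?_).trans (Finset.card_range l).le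
        intro i hi
        exact Finset.mem_range.2 (Finset.mem_filter.1 hi).2
      have hb : θ l ≤ G k (fun i => c i) / (4 * 7 ^ l * 2 ^ (l + 1)) := by
        refine (min_le_right _ _).trans (div_le_div_of_nonneg_right ?_ (by positivity))
        exact Finset.inf'_le (fun m : Fin (l + 1) => G m fun i => c i)
          (mem_univ ⟨k, Nat.lt_succ_of_le (hk l hl)⟩)
      calc 4 * ((7 : ℝ) ^ (F.filter (· < l)).card * θ l)
          ≤ 4 * ((7 : ℝ) ^ l * (G k (fun i => c i) / (4 * 7 ^ l * 2 ^ (l + 1)))) := by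
            gcongr
            · exact (hpos l).le
            · norm_num
        _ = G k (fun i => c i) / 2 * (1 / 2) ^ l := by
            rw [div_pow, one_pow]; field_simp; ring
    calc 4 * ∑ l ∈ F, (7 : ℝ) ^ (F.filter (· < l)).card * θ l
        ≤ ∑ l ∈ F, G k (fun i => c i) / 2 * (1 / 2) ^ l := by
          rw [Finset.mul_sum]; exact Finset.sum_le_sum hterm
      _ ≤ G k (fun i => c i) / 2 * 2 := by
          rw [← Finset.mul_sum]
          refine mul_le_mul_of_nonneg_left ?_ (by linarith [hG k (fun i => c i)])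
          exact (summable_geometric_two.sum_le_tsum F fun _ _ => by positivity).trans
            tsum_geometric_two.le
      _ = G k (fun i => c i) := by ring

end Vale.Agent.P131
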