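import Mathlib

/-!
P131, finite lemma: an operator almost invariant under the commutant of `T` has small normalised
traces against the site operators.  Abstract finite-dimensional form.
-/

namespace Vale.Agent.P131

open Module

variable {E : Type*} [NormedAddCommGroup E] [InnerProductSpace ℂ E] [FiniteDimensional ℂ E]

/-- The trace of a continuous operator in finite dimension. -/
noncomputable def tr (f : E →L[ℂ] E) : ℂ := LinearMap.trace ℂ E (f : E →ₗ[ℂ] E)

/-- The relations used at one site: `T` a sum of annihilators, `H` the grading, `c` the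
coefficient of the site. -/
structure Site (T z S N H : E →L[ℂ] E) (c : ℂ) : Prop where
  adj : N = ContinuousLinearMap.adjoint S
  commN : Commute T N
  comm_z : T * z - z * T = (2 * c) • N
  comm_S : T * S - S * T = (-c) • z
  comm_H : T * H - H * T = T
  SN : S * N - N * S = z
  zS : z * S - S * z = (2 : ℂ) • S
  zN : z * N - N * z = (-2 : ℂ) • N

omit [FiniteDimensional ℂ E] in
lemma tr_mul_comm (f g : E →L[ℂ] E) : tr (f * g) = tr (g * f) :=
  LinearMap.trace_mul_comm ℂ _ _

omit [FiniteDimensional ℂ E] in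
lemma tr_add (f g : E →L[ℂ] E) : tr (f + g) = tr f + tr g := by simp [tr]

omit [FiniteDimensional ℂ E] in
lemma tr_sub (f g : E →L[ℂ] E) : tr (f - g) = tr f - tr g := by simp [tr]

omit [FiniteDimensional ℂ E] in
lemma tr_smul (a : ℂ) (f : E →L[ℂ] E) : tr (a • f) = a * tr f := by simp [tr]

/-- An operator of norm at most `M` with range in a subspace of dimension at most `r` has trace at
most `r * M`. -/
lemma norm_tr_le {f : E →L[ℂ] E} {M : ℝ} {r : ℕ} (hM : ‖f‖ ≤ M)
    (hr : finrank ℂ (LinearMap.range (f : E →ₗ[ℂ] E)) ≤ r) : ‖tr f‖ ≤ r * M := by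
  set U := LinearMap.range (f : E →ₗ[ℂ] E)
  rw [tr, ← LinearMap.trace_restrict_eq_of_forall_mem U (f : E →ₗ[ℂ] E)
      (fun x => LinearMap.mem_range_self _ x),
    LinearMap.trace_eq_sum_inner _ (stdOrthonormalBasis ℂ U)]
  refine (norm_sum_le _ _).trans ((Finset.sum_le_card_nsmul _ _ M fun i _ => ?_).trans ?_)
  · refine (norm_inner_le_norm _ _).trans ?_
    rw [(stdOrthonormalBasis ℂ U).orthonormal.1 i, one_mul]
    refine le_trans ((f.le_opNorm _).trans ?_) hM
    rw [Submodule.subtype_apply, ← Submodule.coe_norm, (stdOrthonormalBasis ℂ U).orthonormal.1 i, mul_one]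
  · rw [nsmul_eq_mul, Finset.card_univ, Fintype.card_fin]
    exact mul_le_mul_of_nonneg_right (by exact_mod_cast hr) ((norm_nonneg _).trans hM)

lemma finrank_range_mul_le_left (f g : E →L[ℂ] E) :
    finrank ℂ (LinearMap.range ((f * g : E →L[ℂ] E) : E →ₗ[ℂ] E)) ≤
      finrank ℂ (LinearMap.range (f : E →ₗ[ℂ] E)) :=
  Submodule.finrank_mono (LinearMap.range_comp_le_range (g : E →ₗ[ℂ] E) (f : E →ₗ[ℂ] E))

/-- The span of the images of `Φ * T * B` for `Φ` in the commutant of `T`. -/
noncomputable def hull (T B : E →L[ℂ] E) : Submodule ℂ E :=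
  Submodule.span ℂ {y | ∃ Φ : E →L[ℂ] E, Commute T Φ ∧ ∃ v, y = Φ (T (B v))}

omit [FiniteDimensional ℂ E] in
lemma hull_invariant {T B A : E →L[ℂ] E} (hA : Commute T A) {y : E} (hy : y ∈ hull T B) :
    A y ∈ hull T B := by
  unfold hull at hy ⊢
  induction hy using Submodule.span_induction with
  | mem y hy =>
    obtain ⟨Φ, hΦ, v, rfl⟩ := hy
    exact Submodule.subset_span ⟨A * Φ, hA.mul_right hΦ, v, rfl⟩
  | zero => simp
  | add x y _ _ hx hy => simpa using add_mem hx hy
  | smul a x _ hx => simpa using Submodule.smul_mem _ a hx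

section Exact

variable {T B z S N H : E →L[ℂ] E} {c : ℂ} {K : ℕ}

omit [FiniteDimensional ℂ E] in
lemma hull_fixed (hB : ∀ Φ : E →L[ℂ] E, Commute T Φ → (1 - B) * Φ * T * B = 0) {y : E}
    (hy : y ∈ hull T B) : B y = y := by
  unfold hull at hy
  induction hy using Submodule.span_induction with
  | mem y hy =>
    obtain ⟨Φ, hΦ, v, rfl⟩ := hy
    exact (sub_eq_zero.1 (by simpa using DFunLike.congr_fun (hB Φ hΦ) v)).symm
  | zero => simp
  | add x y _ _ hx hy => simp [hx, hy]
  | smul a x _ hx => simp [hx]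

/-- `B` is the projection onto the hull plus a part of rank at most `K`. -/
lemma rank_sub (hK : finrank ℂ (LinearMap.ker (T : E →ₗ[ℂ] E)) ≤ K) (hsa : IsSelfAdjoint B)
    (hB : ∀ Φ : E →L[ℂ] E, Commute T Φ → (1 - B) * Φ * T * B = 0) :
    finrank ℂ (LinearMap.range
      ((B - (hull T B).starProjection : E →L[ℂ] E) : E →ₗ[ℂ] E)) ≤ K := by
  set Y := hull T B
  set R := LinearMap.range (B : E →ₗ[ℂ] E) with hR
  have hYR : Y ≤ R := fun y hy => ⟨y, hull_fixed hB hy⟩
  have hTR : R.map (T : E →ₗ[ℂ] E) ≤ Y := by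
    rintro _ ⟨_, ⟨v, rfl⟩, rfl⟩
    exact Submodule.subset_span ⟨1, Commute.one_right T, v, rfl⟩
  have hdim : finrank ℂ R ≤ finrank ℂ Y + K := by
    have h1 := ((T : E →ₗ[ℂ] E).comp R.subtype).finrank_range_add_finrank_ker
    have h2 : finrank ℂ (LinearMap.range ((T : E →ₗ[ℂ] E).comp R.subtype)) ≤ finrank ℂ Y := by
      refine Submodule.finrank_mono ?_
      rwa [LinearMap.range_comp, Submodule.range_subtype]
    have h3 : finrank ℂ (LinearMap.ker ((T : E →ₗ[ℂ] E).comp R.subtype)) ≤ K := by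
      refine le_trans ?_ hK
      rw [← Submodule.finrank_map_subtype_eq]
      refine Submodule.finrank_mono ?_
      rintro _ ⟨x, hx, rfl⟩
      simpa using hx
    omega
  have hle : LinearMap.range ((B - Y.starProjection : E →L[ℂ] E) : E →ₗ[ℂ] E) ≤ R ⊓ Yᗮ := by
    rintro _ ⟨v, rfl⟩
    refine ⟨sub_mem ⟨v, rfl⟩ (hYR (Submodule.starProjection_apply_mem _ v)), ?_⟩
    rw [SetLike.mem_coe, Submodule.mem_orthogonal]
    intro y hy
    show inner ℂ y (B v - Y.starProjection v) = 0
    rw [inner_sub_right, ← Submodule.inner_starProjection_left_eq_right,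
      Submodule.starProjection_eq_self_iff.2 hy]
    have h := hsa.isSymmetric y v
    simp only [ContinuousLinearMap.coe_coe, hull_fixed hB hy] at h
    rw [h, sub_self]
  have h4 : finrank ℂ Y + finrank ℂ (R ⊓ Yᗮ : Submodule ℂ E) = finrank ℂ R := by
    rw [inf_comm]
    exact Submodule.finrank_add_inf_finrank_orthogonal hYR
  have := Submodule.finrank_mono hle
  omega

lemma norm_sub_le (hB1 : ‖B‖ ≤ 1)
    (hB : ∀ Φ : E →L[ℂ] E, Commute T Φ → (1 - B) * Φ * T * B = 0) :
    ‖B - (hull T B).starProjection‖ ≤ 1 := by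
  refine ContinuousLinearMap.opNorm_le_bound _ zero_le_one fun v => ?_
  have e : (B - (hull T B).starProjection) v =
      B ((hull T B)ᗮ.starProjection v) := by
    rw [Submodule.starProjection_orthogonal]
    simp [hull_fixed hB (Submodule.starProjection_apply_mem _ v)]
  rw [e, one_mul]
  refine le_trans (B.le_opNorm _) ?_
  calc ‖B‖ * ‖(hull T B)ᗮ.starProjection v‖ ≤ 1 * ‖(hull T B)ᗮ.starProjection v‖ :=
        mul_le_mul_of_nonneg_right hB1 (norm_nonneg _)
    _ ≤ ‖v‖ := by
      rw [one_mul]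
      simpa using ((hull T B)ᗮ.starProjection.le_opNorm v).trans
        (mul_le_mul_of_nonneg_right (Submodule.starProjection_norm_le _) (norm_nonneg v))

variable (hs : Site T z S N H c)
  (hH : ∀ Y : Submodule ℂ E, (∀ A : E →L[ℂ] E, Commute T A → ∀ y ∈ Y, A y ∈ Y) →
    ∀ y ∈ Y, H y ∈ Y)

include hs hH in
lemma S_T_T_mem {y : E} (hy : y ∈ hull T B) : S (T (T y)) ∈ hull T B := by
  set Y := hull T B
  have hT : ∀ w ∈ Y, T w ∈ Y := fun w hw => hull_invariant (Commute.refl T) hw
  have hN : ∀ w ∈ Y, N w ∈ Y := fun w hw => hull_invariant hs.commN hw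
  have hHY : ∀ w ∈ Y, H w ∈ Y := hH Y fun A hA w hw => hull_invariant hA hw
  have hn : T * N = N * T := hs.commN
  have hHT : T * H = H * T + T := sub_eq_iff_eq_add'.1 hs.comm_H
  have hzT : T * z = z * T + (2 * c) • N := sub_eq_iff_eq_add'.1 hs.comm_z
  have hST : T * S = S * T + (-c) • z := sub_eq_iff_eq_add'.1 hs.comm_S
  have c1 : Commute T (z * T - (2 * c) • (N * H)) := by
    have : T * (z * T - (2 * c) • (N * H)) - (z * T - (2 * c) • (N * H)) * T =
        (T * z) * T - z * T * T - (2 * c) • ((T * N) * H) + (2 * c) • (N * (H * T)) := by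
      simp only [mul_sub, sub_mul, mul_smul_comm, smul_mul_assoc, mul_assoc]; abel
    refine sub_eq_zero.1 (this.trans ?_)
    rw [hzT, hn, mul_assoc N T H, hHT]
    simp only [add_mul, mul_add, smul_mul_assoc, smul_add, mul_assoc]
    abel
  have hz : ∀ w ∈ Y, z (T w) ∈ Y := fun w hw => by
    have h := add_mem (hull_invariant c1 hw) (Y.smul_mem (2 * c) (hN _ (hHY w hw)))
    simpa using h
  have c2 : Commute T (S * T * T + c • (z * T * H) - (c * c) • (N * (H * H + H))) := by
    refine sub_eq_zero.1 ?_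
    have : T * (S * T * T + c • (z * T * H) - (c * c) • (N * (H * H + H))) -
        (S * T * T + c • (z * T * H) - (c * c) • (N * (H * H + H))) * T =
        (T * S) * T * T - S * T * T * T + c • ((T * z) * T * H - z * T * (H * T)) -
        (c * c) • ((T * N) * (H * H + H) - N * ((H * H + H) * T)) := by
      simp only [mul_sub, sub_mul, mul_smul_comm, smul_mul_assoc, mul_assoc, smul_sub, mul_add,
        add_mul, smul_add]
      abel
    refine this.trans ?_
    have h2 : T * (H * H + H) - (H * H + H) * T = H * T + H * T + (T + T) := by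
      have hHT' : ∀ X, T * (H * X) = H * (T * X) + T * X := fun X => by
        rw [← mul_assoc, hHT, add_mul, mul_assoc]
      simp only [mul_add, add_mul, mul_assoc, hHT', hHT]
      abel
    have h3 : (T * N) * (H * H + H) - N * ((H * H + H) * T) =
        N * (H * T + H * T + (T + T)) := by
      rw [← h2, hn, mul_assoc, mul_sub]
    have h4 : z * T * T = z * T * (T * H) - z * T * (H * T) := by
      rw [← mul_sub, hs.comm_H]
    rw [h3, hST, hzT]
    simp only [add_mul, smul_mul_assoc]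
    rw [mul_assoc (z * T) T H, show N * T * H = N * (H * T + T) by rw [mul_assoc, hHT]]
    rw [h4]
    simp only [mul_add, smul_add, smul_sub, neg_smul, smul_smul, mul_assoc]
    module
  have h := sub_mem (add_mem (hull_invariant c2 hy)
    (Y.smul_mem (c * c) (hN _ (add_mem (hHY _ (hHY y hy)) (hHY y hy)))))
    (Y.smul_mem c (hz _ (hHY y hy)))
  simpa using h

include hs hH in
/-- The part of `S` leaving the hull has rank at most `2 * K`. -/
lemma rank_compress (hK : finrank ℂ (LinearMap.ker (T : E →ₗ[ℂ] E)) ≤ K) :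
    finrank ℂ (LinearMap.range (((1 - (hull T B).starProjection) * S *
      (hull T B).starProjection : E →L[ℂ] E) : E →ₗ[ℂ] E)) ≤ 2 * K := by
  set Y := hull T B
  set F : Y →ₗ[ℂ] E := ((1 - Y.starProjection) * S : E →L[ℂ] E).toLinearMap.comp Y.subtype
  have hle : LinearMap.range (((1 - Y.starProjection) * S * Y.starProjection : E →L[ℂ] E) :
      E →ₗ[ℂ] E) ≤ LinearMap.range F := by
    rintro _ ⟨v, rfl⟩
    exact ⟨⟨_, Submodule.starProjection_apply_mem _ v⟩, by simp [F]⟩
  refine (Submodule.finrank_mono hle).trans ?_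
  have hT : ∀ w ∈ Y, T w ∈ Y := fun w hw => hull_invariant (Commute.refl T) hw
  set G : Y →ₗ[ℂ] Y := ((T : E →ₗ[ℂ] E).restrict hT).comp ((T : E →ₗ[ℂ] E).restrict hT)
  have hker : LinearMap.range G ≤ LinearMap.ker F := by
    rintro _ ⟨y, rfl⟩
    rw [LinearMap.mem_ker]
    simp [F, G]
    rw [sub_eq_zero, Submodule.starProjection_eq_self_iff.2 (S_T_T_mem hs hH y.2)]
  have h1 := G.finrank_range_add_finrank_ker
  have h2 := F.finrank_range_add_finrank_ker
  have h3 := Submodule.finrank_mono hker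
  have h4 : finrank ℂ (LinearMap.ker G) ≤ 2 * K := by
    set T' := (T : E →ₗ[ℂ] E).restrict hT
    have hk : finrank ℂ (LinearMap.ker T') ≤ K := by
      refine le_trans ?_ hK
      rw [← Submodule.finrank_map_subtype_eq]
      refine Submodule.finrank_mono ?_
      rintro _ ⟨x, hx, rfl⟩
      exact congrArg Subtype.val (LinearMap.mem_ker.1 hx)
    set J : LinearMap.ker G →ₗ[ℂ] LinearMap.ker T' :=
      (T'.comp (LinearMap.ker G).subtype).codRestrict _ fun x => x.2
    have h5 := J.finrank_range_add_finrank_ker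
    have h6 : finrank ℂ (LinearMap.range J) ≤ K := (Submodule.finrank_le _).trans hk
    have h7 : finrank ℂ (LinearMap.ker J) ≤ K := by
      refine le_trans ?_ hk
      rw [← Submodule.finrank_map_subtype_eq]
      refine Submodule.finrank_mono ?_
      rintro _ ⟨x, hx, rfl⟩
      exact congrArg Subtype.val (LinearMap.mem_ker.1 hx)
    omega
  omega

include hs hH in
/-- Traces of the hull projection against commutators with the site operators. -/
lemma norm_tr_commutator (hK : finrank ℂ (LinearMap.ker (T : E →ₗ[ℂ] E)) ≤ K) (hS : ‖S‖ ≤ 1)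
    {f : E →L[ℂ] E} {M : ℝ} (hf : ‖f‖ ≤ M) :
    ‖tr ((hull T B).starProjection * (S * f - f * S))‖ ≤ 2 * K * M ∧
      ‖tr ((hull T B).starProjection * (N * f - f * N))‖ ≤ 2 * K * M := by
  set q := (hull T B).starProjection
  set F := (1 - q) * S * q
  have hq : ContinuousLinearMap.adjoint q = q :=
    ContinuousLinearMap.isSelfAdjoint_iff'.1 (isSelfAdjoint_starProjection _)
  have hqN : q * N * q = N * q := ContinuousLinearMap.ext fun v =>
    Submodule.starProjection_eq_self_iff.2
      (hull_invariant hs.commN (Submodule.starProjection_apply_mem _ v))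
  have hqS : q * S * q = q * S := by
    have h := congrArg ContinuousLinearMap.adjoint hqN
    simp only [hs.adj, ← ContinuousLinearMap.star_eq_adjoint, star_mul, star_star] at h hq
    rw [hq] at h
    rwa [← mul_assoc] at h
  have hF : F = S * q - q * S := by
    rw [show F = S * q - q * S * q by simp [F, sub_mul]]
    rw [hqS]
  have hF' : ContinuousLinearMap.adjoint F = q * N - N * q := by
    rw [hF, map_sub, hs.adj]
    simp only [← ContinuousLinearMap.star_eq_adjoint, star_mul]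
    rw [ContinuousLinearMap.star_eq_adjoint, hq]
  have hnorm : ‖F‖ ≤ 1 := by
    have h1 : ‖(1 : E →L[ℂ] E) - q‖ ≤ 1 := by
      rw [← Submodule.starProjection_orthogonal']
      exact Submodule.starProjection_norm_le _
    calc ‖F‖ ≤ ‖1 - q‖ * ‖S‖ * ‖q‖ :=
          (norm_mul_le _ _).trans (mul_le_mul_of_nonneg_right (norm_mul_le _ _) (norm_nonneg _))
      _ ≤ 1 * 1 * 1 := by gcongr; exact Submodule.starProjection_norm_le _
      _ = 1 := by ring
  have hr : finrank ℂ (LinearMap.range (F : E →ₗ[ℂ] E)) ≤ 2 * K := rank_compress hs hH hK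
  have key : ∀ G : E →L[ℂ] E, ‖G‖ ≤ 1 →
      finrank ℂ (LinearMap.range (G : E →ₗ[ℂ] E)) ≤ 2 * K → ‖tr (G * f)‖ ≤ 2 * K * M := by
    intro G hG hGr
    refine le_of_le_of_eq (norm_tr_le (M := M) (r := 2 * K) ((norm_mul_le _ _).trans ?_)
      ((finrank_range_mul_le_left G f).trans hGr)) (by norm_num)
    calc ‖G‖ * ‖f‖ ≤ 1 * M := mul_le_mul hG hf (norm_nonneg _) zero_le_one
      _ = M := one_mul M
  have cyc : ∀ A : E →L[ℂ] E, tr (q * (A * f - f * A)) = tr ((q * A - A * q) * f) := fun A => by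
    rw [mul_sub, sub_mul, tr_sub, tr_sub, ← mul_assoc q f A, tr_mul_comm (q * f) A]
    simp only [mul_assoc]
  constructor
  · rw [cyc, show q * S - S * q = -F by rw [hF, neg_sub]]
    refine key _ (by rwa [norm_neg]) ?_
    rwa [show ((-F : E →L[ℂ] E) : E →ₗ[ℂ] E) = -(F : E →ₗ[ℂ] E) from rfl, LinearMap.range_neg]
  · rw [cyc, ← hF']
    refine key _ (by rwa [LinearIsometryEquiv.norm_map]) ?_
    have : ((ContinuousLinearMap.adjoint F : E →L[ℂ] E) : E →ₗ[ℂ] E) =
        LinearMap.adjoint (F : E →ₗ[ℂ] E) := rfl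
    rw [this, LinearMap.finrank_range_adjoint]
    exact hr

include hs hH in
/-- The exact finite lemma. -/
theorem norm_tr_site (hK : finrank ℂ (LinearMap.ker (T : E →ₗ[ℂ] E)) ≤ K)
    (hz1 : ‖z‖ ≤ 1) (hS1 : ‖S‖ ≤ 1) (hN1 : ‖N‖ ≤ 1)
    (hsa : IsSelfAdjoint B) (hB1 : ‖B‖ ≤ 1)
    (hB : ∀ Φ : E →L[ℂ] E, Commute T Φ → (1 - B) * Φ * T * B = 0)
    {R : E →L[ℂ] E} (hR : ‖R‖ ≤ 1) (hRS : Commute R S) (hRN : Commute R N) :
    ‖tr (B * z * R)‖ ≤ 3 * K ∧ ‖tr (B * S * R)‖ ≤ 3 * K ∧ ‖tr (B * N * R)‖ ≤ 3 * K := by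
  set q := (hull T B).starProjection
  have main : ∀ A : E →L[ℂ] E, ‖A‖ ≤ 1 → ‖tr (q * A)‖ ≤ 2 * K → ‖tr (B * A)‖ ≤ 3 * K := by
    intro A hA hq
    have hsplit : tr (B * A) = tr ((B - q) * A) + tr (q * A) := by
      rw [← tr_add, sub_mul, sub_add_cancel]
    have h1 : ‖tr ((B - q) * A)‖ ≤ K * 1 :=
      norm_tr_le ((norm_mul_le _ _).trans
        (mul_le_one₀ (norm_sub_le hB1 hB) (norm_nonneg _) hA))
        ((finrank_range_mul_le_left _ A).trans (rank_sub hK hsa hB))
    rw [hsplit]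
    exact (norm_add_le _ _).trans (by linarith)
  have hprod : ∀ A : E →L[ℂ] E, ‖A‖ ≤ 1 → ‖A * R‖ ≤ 1 := fun A hA =>
    (norm_mul_le _ _).trans (mul_le_one₀ hA (norm_nonneg _) hR)
  have hhalf : ∀ A : E →L[ℂ] E, ‖A‖ ≤ 1 → ‖(1 / 2 : ℂ) • A‖ ≤ 1 / 2 := fun A hA => by
    rw [norm_smul]; norm_num; linarith
  have hC := fun {f : E →L[ℂ] E} {M : ℝ} (hf : ‖f‖ ≤ M) =>
    norm_tr_commutator (B := B) hs hH hK hS1 hf
  have hKnn : (0 : ℝ) ≤ K := Nat.cast_nonneg K
  have ez : z * R = S * (N * R) - (N * R) * S := by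
    rw [mul_assoc N R S, hRS.eq, ← mul_assoc, ← mul_assoc, ← sub_mul, hs.SN]
  have eS : S * R = S * (-(1 / 2 : ℂ) • (z * R)) - (-(1 / 2 : ℂ) • (z * R)) * S := by
    rw [mul_smul_comm, smul_mul_assoc, mul_assoc z R S, hRS.eq, ← mul_assoc,
      ← mul_assoc, ← smul_sub, ← sub_mul, ← neg_sub (z * S) (S * z), hs.zS, neg_mul,
      smul_mul_assoc, smul_neg, neg_smul, neg_neg, smul_smul]
    norm_num
  have eN : N * R = N * ((1 / 2 : ℂ) • (z * R)) - ((1 / 2 : ℂ) • (z * R)) * N := by
    rw [mul_smul_comm, smul_mul_assoc, mul_assoc z R N, hRN.eq, ← mul_assoc,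
      ← mul_assoc, ← smul_sub, ← sub_mul, ← neg_sub (z * N) (N * z), hs.zN, neg_mul,
      smul_mul_assoc, neg_smul, neg_neg, smul_smul]
    norm_num
  refine ⟨?_, ?_, ?_⟩ <;> rw [mul_assoc]
  · refine main _ (hprod z hz1) ?_
    rw [ez]
    simpa using (hC (hprod N hN1)).1
  · refine main _ (hprod S hS1) ?_
    rw [eS]
    refine ((hC (M := 1 / 2) ?_).1).trans (by linarith)
    rw [neg_smul, norm_neg]
    exact hhalf _ (hprod z hz1)
  · refine main _ (hprod N hN1) ?_
    rw [eN]
    exact ((hC (hhalf _ (hprod z hz1))).2).trans (by linarith)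

end Exact

end Vale.Agent.P131
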