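import Vale.Agent.P131.Mat
import Vale.Agent.P131.Chain
import Vale.Agent.P131.FiniteAbs

/-!
P131, finite threshold lemma for matrices: rank and trace bound, then compactness.
-/

namespace Vale.Agent.P131

open Matrix Finset Module
open scoped ComplexOrder

variable {k : ℕ}

/-- A matrix supported on the shift by `a`. -/
def shiftMat (a : Bits (Fin k)) (d : Bits (Fin k) → ℂ) : Matrix (Bits (Fin k)) (Bits (Fin k)) ℂ :=
  of fun x y => if x = y + a then d y else 0

theorem shiftMat_mul (a b : Bits (Fin k)) (d e : Bits (Fin k) → ℂ) :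
    shiftMat a d * shiftMat b e = shiftMat (a + b) (fun y => d (y + b) * e y) := by
  ext x y
  rw [Matrix.mul_apply, Finset.sum_eq_single (y + b)]
  · simp only [shiftMat, of_apply, if_true, ite_mul, zero_mul,
      show y + b + a = y + (a + b) by abel]
  · intro z _ hz
    simp [shiftMat, hz]
  · intro h
    exact absurd (Finset.mem_univ _) h

theorem shiftMat_sub (a : Bits (Fin k)) (d e : Bits (Fin k) → ℂ) :
    shiftMat a d - shiftMat a e = shiftMat a (d - e) := by
  ext x y
  by_cases h : x = y + a <;> simp [shiftMat, h]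

theorem shiftMat_smul (a : Bits (Fin k)) (t : ℂ) (d : Bits (Fin k) → ℂ) :
    t • shiftMat a d = shiftMat a (t • d) := by
  ext x y
  by_cases h : x = y + a <;> simp [shiftMat, h]

theorem lowerMat_shift (i : Fin k) :
    lowerMat i = shiftMat (Pi.single i 1) (fun y => if y i = 0 then 1 else 0) := by
  ext x y
  by_cases h : x = y + Pi.single i 1 <;> simp [lowerMat, shiftMat, h]

theorem raiseMat_shift (i : Fin k) :
    raiseMat i = shiftMat (Pi.single i 1) (fun y => if y i = 1 then 1 else 0) := by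
  ext x y
  by_cases h : x = y + Pi.single i 1 <;> simp [raiseMat, shiftMat, h]

theorem signMat_shift (i : Fin k) : signMat i = shiftMat 0 (fun y => chi (y i)) := by
  ext x y
  simp [signMat, shiftMat, pauli_apply, dot_single_left]

theorem pauli_shift (a b : Bits (Fin k)) : pauli a b = shiftMat a (fun y => chi (dot b y)) := rfl

theorem diagonal_shift (h : Bits (Fin k) → ℂ) : Matrix.diagonal h = shiftMat 0 h := by
  ext x y
  rw [Matrix.diagonal_apply, shiftMat, of_apply, add_zero]
  split_ifs with e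
  · rw [e]
  · rfl

/-- The operator of a matrix on the Euclidean space. -/
noncomputable def toE : Matrix (Bits (Fin k)) (Bits (Fin k)) ℂ ≃⋆ₐ[ℂ]
    EuclideanSpace ℂ (Bits (Fin k)) →L[ℂ] EuclideanSpace ℂ (Bits (Fin k)) :=
  Matrix.toEuclideanCLM

theorem norm_shiftMat (a : Bits (Fin k)) (d : Bits (Fin k) → ℂ) (hd : ∀ y, ‖d y‖ ≤ 1) :
    ‖toE (shiftMat a d)‖ ≤ 1 := by
  refine ContinuousLinearMap.opNorm_le_bound _ zero_le_one fun v => ?_
  have e : ∀ x, (shiftMat a d).mulVec v.ofLp x = d (x + a) * v.ofLp (x + a) := fun x => by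
    simp only [Matrix.mulVec, dotProduct, shiftMat, of_apply, ite_mul, zero_mul]
    rw [Finset.sum_eq_single (x + a)]
    · rw [add_assoc, bits_add_self, add_zero, if_pos rfl]
    · intro z _ hz
      rw [if_neg]
      rintro rfl
      exact hz (by rw [add_assoc, bits_add_self, add_zero])
    · intro h
      exact absurd (Finset.mem_univ _) h
  rw [one_mul, EuclideanSpace.norm_eq, EuclideanSpace.norm_eq]
  refine Real.sqrt_le_sqrt ?_
  simp only [toE, Matrix.ofLp_toEuclideanCLM, e]
  rw [← Equiv.sum_comp (Equiv.addRight a) (fun x => ‖v.ofLp x‖ ^ 2)]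
  refine Finset.sum_le_sum fun x _ => ?_
  rw [norm_mul, Equiv.coe_addRight, mul_pow]
  exact mul_le_of_le_one_left (by positivity) (pow_le_one₀ (norm_nonneg _) (hd _))

theorem norm_pauli (a b : Bits (Fin k)) : ‖toE (pauli a b)‖ ≤ 1 := by
  rw [pauli_shift]
  exact norm_shiftMat _ _ fun y => (norm_chi _).le

theorem tr_toE (M : Matrix (Bits (Fin k)) (Bits (Fin k)) ℂ) : tr (toE M) = M.trace := by
  rw [tr, toE, Matrix.coe_toEuclideanCLM_eq_toEuclideanLin,
    Matrix.toEuclideanLin_eq_toLin_orthonormal, Matrix.trace_toLin_eq]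

theorem norm_toE_le_one {B : Matrix (Bits (Fin k)) (Bits (Fin k)) ℂ} (h0 : B.PosSemidef)
    (h1 : (1 - B).PosSemidef) : ‖toE B‖ ≤ 1 := by
  refine ContinuousLinearMap.opNorm_le_bound _ zero_le_one fun v => ?_
  have hBh : Bᴴ = B := h0.1
  have hP := (h1.mul_mul_conjTranspose_same B).add (h0.mul_mul_conjTranspose_same (1 - B))
  rw [hBh, show (1 - B)ᴴ = 1 - B from h1.1,
    show B * (1 - B) * B + (1 - B) * B * (1 - B) = B - B * B by noncomm_ring] at hP
  have ha := hP.re_dotProduct_nonneg v.ofLp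
  have hb := h1.re_dotProduct_nonneg v.ofLp
  have hn : ∀ x : EuclideanSpace ℂ (Bits (Fin k)), ‖x‖ ^ 2 = RCLike.re (star x.ofLp ⬝ᵥ x.ofLp) := by
    intro x
    rw [← inner_self_eq_norm_sq (𝕜 := ℂ), EuclideanSpace.inner_eq_star_dotProduct, dotProduct_comm]
  have hc : star ((toE B v).ofLp) ⬝ᵥ (toE B v).ofLp = star v.ofLp ⬝ᵥ (B * B).mulVec v.ofLp := by
    rw [toE, Matrix.ofLp_toEuclideanCLM, Matrix.star_mulVec, hBh, ← Matrix.dotProduct_mulVec,
      Matrix.mulVec_mulVec]
  rw [one_mul]
  refine (pow_le_pow_iff_left₀ (norm_nonneg _) (norm_nonneg _) two_ne_zero).1 ?_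
  rw [hn, hn, hc]
  simp only [Matrix.sub_mulVec, Matrix.one_mulVec, dotProduct_sub, map_sub] at ha hb
  linarith

theorem lowerSum_comm_single (c : Fin k → ℝ) (i : Fin k)
    (X : Matrix (Bits (Fin k)) (Bits (Fin k)) ℂ) (hX : ∀ j, j ≠ i → Commute (lowerMat j) X) :
    lowerSum c * X - X * lowerSum c = (c i : ℂ) • (lowerMat i * X - X * lowerMat i) := by
  simp only [lowerSum, Finset.sum_mul, Finset.mul_sum, smul_mul_assoc, mul_smul_comm,
    ← Finset.sum_sub_distrib, ← smul_sub]
  rw [Finset.sum_eq_single i]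
  · intro j _ hj
    rw [(hX j hj).eq, sub_self, smul_zero]
  · intro h
    exact absurd (Finset.mem_univ _) h

theorem bit_add_ne {i j : Fin k} (h : i ≠ j) (y : Bits (Fin k)) :
    (y + Pi.single j 1 : Bits (Fin k)) i = y i := by
  simp [h]

theorem commute_lower_lower (i j : Fin k) : Commute (lowerMat j) (lowerMat i) := by
  rcases eq_or_ne j i with rfl | h
  · exact Commute.refl _
  rw [commute_iff_eq, lowerMat_shift, lowerMat_shift, shiftMat_mul, shiftMat_mul,
    add_comm (Pi.single j 1 : Bits (Fin k))]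
  congr 1
  funext y
  rw [bit_add_ne h, bit_add_ne h.symm]
  ring

theorem commute_lower_raise {i j : Fin k} (h : j ≠ i) : Commute (lowerMat j) (raiseMat i) := by
  rw [commute_iff_eq, lowerMat_shift, raiseMat_shift, shiftMat_mul, shiftMat_mul,
    add_comm (Pi.single j 1 : Bits (Fin k))]
  congr 1
  funext y
  rw [bit_add_ne h, bit_add_ne h.symm]
  ring

theorem commute_lower_sign {i j : Fin k} (h : j ≠ i) : Commute (lowerMat j) (signMat i) := by
  rw [commute_iff_eq, lowerMat_shift, signMat_shift, shiftMat_mul, shiftMat_mul, add_comm (0 : Bits (Fin k))]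
  congr 1
  funext y
  rw [add_zero, bit_add_ne h.symm]
  ring

theorem lower_raise_relations (i : Fin k) :
    raiseMat i * lowerMat i - lowerMat i * raiseMat i = signMat i ∧
    signMat i * raiseMat i - raiseMat i * signMat i = (2 : ℂ) • raiseMat i ∧
    signMat i * lowerMat i - lowerMat i * signMat i = (-2 : ℂ) • lowerMat i := by
  have h1 : (1 : ZMod 2) + 1 = 0 := by decide
  simp only [lowerMat_shift, raiseMat_shift, signMat_shift, shiftMat_mul, shiftMat_smul,
    bits_add_self, zero_add, add_zero, shiftMat_sub]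
  refine ⟨?_, ?_, ?_⟩ <;> congr 1 <;> funext y <;>
    rcases zmod2_cases (y i) with h | h <;>
    norm_num [h, h1, chi_zero, chi_one, one_add_one_eq_two]

theorem lowerSum_comm_diag (c : Fin k → ℝ) (h : Bits (Fin k) → ℂ)
    (hh : ∀ i y, y i = 0 → h (y + Pi.single i 1) = h y - 1) :
    lowerSum c * Matrix.diagonal h - Matrix.diagonal h * lowerSum c = lowerSum c := by
  simp only [lowerSum, Finset.sum_mul, Finset.mul_sum, smul_mul_assoc, mul_smul_comm,
    ← Finset.sum_sub_distrib, ← smul_sub]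
  refine Finset.sum_congr rfl fun j _ => congrArg _ ?_
  simp only [lowerMat_shift, diagonal_shift, shiftMat_mul, add_zero, zero_add, shiftMat_sub]
  congr 1
  funext y
  by_cases hy : y j = 0 <;> simp [hy]
  rw [hh j y hy]
  ring

theorem site (c : Fin k → ℝ) (h : Bits (Fin k) → ℂ)
    (hh : ∀ i y, y i = 0 → h (y + Pi.single i 1) = h y - 1) (i : Fin k) :
    Site (toE (lowerSum c)) (toE (signMat i)) (toE (raiseMat i)) (toE (lowerMat i))
      (toE (Matrix.diagonal h)) (c i : ℂ) := by
  obtain ⟨r1, r2, r3⟩ := lower_raise_relations i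
  refine ⟨?_, ?_, ?_, ?_, ?_, ?_, ?_, ?_⟩
  · rw [← ContinuousLinearMap.star_eq_adjoint, ← map_star, Matrix.star_eq_conjTranspose]
    congr 1
    ext x y
    have h1 : (1 : ZMod 2) + 1 = 0 := by decide
    simp only [lowerMat, raiseMat, Matrix.conjTranspose_apply, of_apply]
    have e : (x = y + Pi.single i 1 ∧ y i = 0) ↔ (y = x + Pi.single i 1 ∧ x i = 1) := by
      constructor <;> rintro ⟨rfl, hy⟩ <;>
        exact ⟨by rw [add_assoc, bits_add_self, add_zero], by simp [hy, h1]⟩
    by_cases hx : x = y + Pi.single i 1 ∧ y i = 0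
    · rw [if_pos hx, if_pos (e.1 hx), star_one]
    · rw [if_neg hx, if_neg (fun h' => hx (e.2 h')), star_zero]
  · refine Commute.map ?_ toE
    exact Commute.sum_left _ _ _ fun j _ => (commute_lower_lower i j).smul_left _
  · rw [← map_mul, ← map_mul, ← map_sub, ← map_smul,
      lowerSum_comm_single c i _ fun j hj => commute_lower_sign hj, ← neg_sub, r3, smul_neg,
      smul_smul, ← neg_smul]
    congr 2
    ring
  · rw [← map_mul, ← map_mul, ← map_sub, ← map_smul,
      lowerSum_comm_single c i _ fun j hj => commute_lower_raise hj, ← neg_sub, r1, smul_neg,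
      neg_smul]
  · rw [← map_mul, ← map_mul, ← map_sub, lowerSum_comm_diag c h hh]
  · rw [← map_mul, ← map_mul, ← map_sub, r1]
  · rw [← map_mul, ← map_mul, ← map_sub, r2, map_smul]
  · rw [← map_mul, ← map_mul, ← map_sub, r3, map_smul]

theorem commute_pauli {a b a' b' : Bits (Fin k)} (h : dot b a' = 0) (h' : dot b' a = 0) :
    Commute (pauli a b) (pauli a' b') := by
  rw [commute_iff_eq, pauli_mul, pauli_mul, h, h', add_comm a, add_comm b]

/-- The rank and trace bound at an exact fixed point, for matrices. -/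
theorem norm_trace_exact (c : Fin k → ℝ) (h : Bits (Fin k) → ℂ)
    (hh : ∀ i y, y i = 0 → h (y + Pi.single i 1) = h y - 1) (D : ℕ)
    (hK : finrank ℂ (LinearMap.ker (lowerSum c).mulVecLin) ≤ D)
    (hH : ∀ Y : Submodule ℂ (Bits (Fin k) → ℂ),
      (∀ Φ, Commute Φ (lowerSum c) → ∀ y ∈ Y, Φ.mulVec y ∈ Y) →
        ∀ y ∈ Y, (Matrix.diagonal h).mulVec y ∈ Y)
    {B : EuclideanSpace ℂ (Bits (Fin k)) →L[ℂ] EuclideanSpace ℂ (Bits (Fin k))}
    (hsa : IsSelfAdjoint B) (hB1 : ‖B‖ ≤ 1)
    (hB : ∀ Φ, Commute Φ (lowerSum c) → (1 - toE.symm B) * Φ * lowerSum c * toE.symm B = 0)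
    {a b : Bits (Fin k)} (hab : a ≠ 0 ∨ b ≠ 0) :
    ‖(pauli a b * toE.symm B).trace‖ ≤ 6 * (D : ℝ) := by
  obtain ⟨i, hi⟩ : ∃ i, a i ≠ 0 ∨ b i ≠ 0 := by
    rcases hab with h0 | h0
    · obtain ⟨i, hi⟩ := Function.ne_iff.1 h0
      exact ⟨i, Or.inl hi⟩
    · obtain ⟨i, hi⟩ := Function.ne_iff.1 h0
      exact ⟨i, Or.inr hi⟩
  have hKE : finrank ℂ (LinearMap.ker (toE (lowerSum c) :
      EuclideanSpace ℂ (Bits (Fin k)) →ₗ[ℂ] EuclideanSpace ℂ (Bits (Fin k)))) ≤ D := by
    refine le_trans (le_of_eq_of_le (LinearEquiv.finrank_map_eq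
      (WithLp.linearEquiv 2 ℂ (Bits (Fin k) → ℂ)) _).symm (Submodule.finrank_mono ?_)) hK
    rintro _ ⟨v, hv, rfl⟩
    rw [SetLike.mem_coe, LinearMap.mem_ker] at hv
    rw [LinearMap.mem_ker, Matrix.mulVecLin_apply]
    simpa [toE] using congrArg WithLp.ofLp hv
  have hHE : ∀ Y : Submodule ℂ (EuclideanSpace ℂ (Bits (Fin k))),
      (∀ A, Commute (toE (lowerSum c)) A → ∀ y ∈ Y, A y ∈ Y) →
        ∀ y ∈ Y, toE (Matrix.diagonal h) y ∈ Y := by
    intro Y hY y hy
    have := hH (Y.comap (WithLp.linearEquiv 2 ℂ (Bits (Fin k) → ℂ)).symm.toLinearMap) ?_ y.ofLp hy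
    · simpa [toE, Submodule.mem_comap, ← Matrix.toEuclideanCLM_toLp] using this
    · intro Φ hΦ v hv
      have := hY (toE Φ) (hΦ.symm.map toE) _ hv
      simpa [toE, Submodule.mem_comap, Matrix.toEuclideanCLM_toLp] using this
  have hBE : ∀ Ψ, Commute (toE (lowerSum c)) Ψ → (1 - B) * Ψ * toE (lowerSum c) * B = 0 := by
    intro Ψ hΨ
    have h1 := congrArg toE (hB (toE.symm Ψ) ?_)
    · simpa using h1
    · simpa using (hΨ.symm.map toE.symm)
  set a' := Function.update a i 0
  set b' := Function.update b i 0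
  have ha' : a' i = 0 := Function.update_self i 0 a
  have hb' : b' i = 0 := Function.update_self i 0 b
  have hd : ∀ (s : ZMod 2) (u : Bits (Fin k)), u i = 0 →
      dot (Pi.single i s) u = 0 ∧ dot u (Pi.single i s) = 0 := by
    intro s u hu
    have : dot (Pi.single i s) u = 0 := by simp [dot, Pi.single_apply, hu]
    exact ⟨this, by rw [dot_comm, this]⟩
  set R := pauli a' b'
  have hRW : ∀ s t, Commute R (pauli (Pi.single i s) (Pi.single i t)) := fun s t =>
    commute_pauli (hd s b' hb').2 (hd t a' ha').1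
  have hR0 : Commute R (pauli (Pi.single i 1) 0) := by simpa using hRW 1 0
  have hRS : Commute R (raiseMat i) := by
    rw [raiseMat_eq]
    exact (hR0.sub_right (hRW 1 1)).smul_right _
  have hRN : Commute R (lowerMat i) := by
    rw [lowerMat_eq]
    exact (hR0.add_right (hRW 1 1)).smul_right _
  have hsplit : pauli a b = pauli (Pi.single i (a i)) (Pi.single i (b i)) * R := by
    rw [pauli_mul, (hd (b i) a' ha').1, chi_zero, one_smul]
    congr 1 <;> funext j <;> rcases eq_or_ne j i with rfl | hj <;> simp [a', b', *]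
  have ite_le : ∀ (p : Prop) [Decidable p], ‖(if p then 1 else 0 : ℂ)‖ ≤ 1 := by
    intro p _
    split_ifs <;> simp
  obtain ⟨bz, bS, bN⟩ := norm_tr_site (site c h hh i) hHE hKE
    (by rw [signMat]; exact norm_pauli _ _)
    (by rw [raiseMat_shift]; exact norm_shiftMat _ _ fun y => ite_le _)
    (by rw [lowerMat_shift]; exact norm_shiftMat _ _ fun y => ite_le _)
    hsa hB1 hBE (norm_pauli a' b') (hRS.map toE) (hRN.map toE)
  have conv : ∀ M : Matrix (Bits (Fin k)) (Bits (Fin k)) ℂ,
      tr (B * toE M * toE R) = (M * R * toE.symm B).trace := by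
    intro M
    rw [← tr_toE, map_mul, map_mul, StarAlgEquiv.apply_symm_apply, mul_assoc, tr_mul_comm]
  rw [conv] at bz bS bN
  have eX : pauli (Pi.single i 1) 0 = lowerMat i + raiseMat i := by
    rw [lowerMat_eq, raiseMat_eq]
    module
  have eY : pauli (Pi.single i 1) (Pi.single i 1) = lowerMat i - raiseMat i := by
    rw [lowerMat_eq, raiseMat_eq]
    module
  have hD : (0 : ℝ) ≤ D := Nat.cast_nonneg D
  rw [hsplit]
  rcases zmod2_cases (a i) with ea | ea <;> rcases zmod2_cases (b i) with eb | eb <;>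
    rw [ea, eb] <;> (try simp only [Pi.single_zero]) <;> simp only [ea, eb] at hi
  · simp at hi
  · exact bz.trans (by linarith)
  · rw [eX, add_mul, add_mul, Matrix.trace_add]
    exact (norm_add_le _ _).trans (by linarith)
  · rw [eY, sub_mul, sub_mul, Matrix.trace_sub]
    exact (_root_.norm_sub_le _ _).trans (by linarith)

/-- The threshold from compactness, given the two facts about chains. -/
theorem exists_threshold_of (c : Fin k → ℝ) (h : Bits (Fin k) → ℂ)
    (hh : ∀ i y, y i = 0 → h (y + Pi.single i 1) = h y - 1) (D : ℕ)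
    (hK : finrank ℂ (LinearMap.ker (lowerSum c).mulVecLin) ≤ D)
    (hH : ∀ Y : Submodule ℂ (Bits (Fin k) → ℂ),
      (∀ Φ, Commute Φ (lowerSum c) → ∀ y ∈ Y, Φ.mulVec y ∈ Y) →
        ∀ y ∈ Y, (Matrix.diagonal h).mulVec y ∈ Y) :
    ∃ η : ℝ, 0 < η ∧ ∃ (r : ℕ) (Φ : Fin r → Matrix (Bits (Fin k)) (Bits (Fin k)) ℂ),
      (∀ l, Commute (Φ l) (lowerSum c)) ∧
      ∀ B : Matrix (Bits (Fin k)) (Bits (Fin k)) ℂ, B.PosSemidef → (1 - B).PosSemidef →
        ∑ l, hsq ((1 - B) * Φ l * lowerSum c * B) ≤ η →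
        ∀ a b : Bits (Fin k), (a ≠ 0 ∨ b ≠ 0) →
          ‖(pauli a b * B).trace‖ ≤ 6 * (D : ℝ) + 1 := by
  set T := lowerSum c
  set Z : Submodule ℂ (Matrix (Bits (Fin k)) (Bits (Fin k)) ℂ) :=
    LinearMap.ker (LinearMap.mulLeft ℂ T - LinearMap.mulRight ℂ T)
  have hZ : ∀ X, X ∈ Z ↔ Commute X T := fun X => by
    simp [Z, commute_iff_eq, sub_eq_zero, eq_comm]
  set bas := Module.finBasis ℂ Z
  let g : Matrix (Bits (Fin k)) (Bits (Fin k)) ℂ → ℝ := fun B =>
    ∑ l, hsq ((1 - B) * (bas l : Matrix (Bits (Fin k)) (Bits (Fin k)) ℂ) * T * B)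
  have hsymm : Continuous (fun B => (toE (k := k)).symm B) :=
    LinearMap.continuous_of_finiteDimensional (toE (k := k)).symm.toAlgEquiv.toLinearMap
  have hg : Continuous g := continuous_finsetSum _ fun l _ =>
    continuous_finsetSum _ fun x _ => continuous_finsetSum _ fun y _ =>
      (((((continuous_const.sub continuous_id).matrix_mul continuous_const).matrix_mul
        continuous_const).matrix_mul continuous_id).matrix_elem x y).norm.pow 2
  set bad : Set (EuclideanSpace ℂ (Bits (Fin k)) →L[ℂ] EuclideanSpace ℂ (Bits (Fin k))) :=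
    Metric.closedBall 0 1 ∩ ({B | IsSelfAdjoint B} ∩
      ⋃ p ∈ {p : Bits (Fin k) × Bits (Fin k) | p.1 ≠ 0 ∨ p.2 ≠ 0},
        {B | 6 * (D : ℝ) + 1 ≤ ‖(pauli p.1 p.2 * toE.symm B).trace‖})
  have hbad : IsCompact bad := by
    refine (isCompact_closedBall _ _).inter_right ((isClosed_eq ?_ continuous_id).inter ?_)
    · exact LinearIsometryEquiv.continuous
        (ContinuousLinearMap.adjoint (𝕜 := ℂ) (E := EuclideanSpace ℂ (Bits (Fin k)))
          (F := EuclideanSpace ℂ (Bits (Fin k))))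
    · refine (Set.toFinite _).isClosed_biUnion fun p _ => isClosed_le continuous_const ?_
      exact ((continuous_const.matrix_mul hsymm).matrix_trace).norm
  have hpos : ∀ B ∈ bad, 0 < g (toE.symm B) := by
    intro B hB
    obtain ⟨hball, hsa, hu⟩ := hB
    simp only [Set.mem_iUnion, Set.mem_ofPred_eq, exists_prop] at hu
    obtain ⟨p, hp, hle⟩ := hu
    have hnn : ∀ M : Matrix (Bits (Fin k)) (Bits (Fin k)) ℂ, 0 ≤ hsq M := fun M => by
      unfold hsq; positivity
    refine lt_of_le_of_ne (Finset.sum_nonneg fun l _ => hnn _) fun h0 => ?_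
    have hz := (Finset.sum_eq_zero_iff_of_nonneg fun l _ => hnn _).1 h0.symm
    have hzero : ∀ l, (1 - toE.symm B) * (bas l : Matrix (Bits (Fin k)) (Bits (Fin k)) ℂ) * T *
        toE.symm B = 0 := fun l => by
      have := hz l (Finset.mem_univ _)
      unfold hsq at this
      rw [Finset.sum_eq_zero_iff_of_nonneg fun x _ => by positivity] at this
      ext x y
      have := (Finset.sum_eq_zero_iff_of_nonneg fun y _ => by positivity).1
        (this x (Finset.mem_univ _)) y (Finset.mem_univ _)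
      simpa using this
    have hall : ∀ Φ, Commute Φ T → (1 - toE.symm B) * Φ * T * toE.symm B = 0 := by
      intro Φ hΦ
      have hm := congrArg (Subtype.val) (bas.sum_repr ⟨Φ, (hZ Φ).2 hΦ⟩)
      simp only [AddSubmonoidClass.coe_finsetSum, SetLike.val_smul] at hm
      rw [← hm]
      simp only [Finset.mul_sum, Finset.sum_mul, mul_smul_comm, smul_mul_assoc, hzero, smul_zero,
        Finset.sum_const_zero]
    have := norm_trace_exact c h hh D hK hH hsa (mem_closedBall_zero_iff.1 hball) hall hp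
    linarith
  obtain ⟨η, hη, hη'⟩ : ∃ η, 0 < η ∧ ∀ B ∈ bad, η < g (toE.symm B) := by
    rcases bad.eq_empty_or_nonempty with he | hne
    · exact ⟨1, one_pos, by simp [he]⟩
    · obtain ⟨B0, hB0, hmin⟩ := hbad.exists_isMinOn hne (hg.comp hsymm).continuousOn
      refine ⟨g (toE.symm B0) / 2, half_pos (hpos B0 hB0), fun B hB => ?_⟩
      exact lt_of_lt_of_le (half_lt_self (hpos B0 hB0)) (hmin hB)
  refine ⟨η, hη, _, fun l => (bas l : Matrix (Bits (Fin k)) (Bits (Fin k)) ℂ),
    fun l => (hZ _).1 (bas l).2, fun B h0 h1 hsum a b hab => ?_⟩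
  by_contra hc
  refine absurd (hη' (toE B) ⟨mem_closedBall_zero_iff.2 (norm_toE_le_one h0 h1), ?_, ?_⟩) ?_
  · exact (Matrix.isHermitian_iff_isSelfAdjoint.1 h0.1).map toE
  · simp only [Set.mem_iUnion, Set.mem_ofPred_eq, exists_prop, StarAlgEquiv.symm_apply_apply]
    exact ⟨(a, b), hab, (not_le.1 hc).le⟩
  · rw [StarAlgEquiv.symm_apply_apply]
    exact not_lt.2 hsum

theorem ones_add_single (i : Fin k) (y : Bits (Fin k)) (hy : y i = 0) :
    ones (y + Pi.single i 1 : Bits (Fin k)) = ones y + 1 := by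
  have e : ∀ j, ((y + Pi.single i 1 : Bits (Fin k)) j).val =
      (y j).val + if j = i then 1 else 0 := by
    intro j
    rcases eq_or_ne j i with rfl | hj
    · simp [hy]
      decide
    · simp [hj]
  unfold ones
  rw [Finset.sum_congr rfl fun j _ => e j, Finset.sum_add_distrib]
  simp

/-- The finite threshold lemma: if a matrix between `0` and `1` is almost invariant under the
commutant of `lowerSum c`, its traces against the nontrivial Pauli matrices are small. -/
theorem exists_threshold {k : ℕ} (c : Fin k → ℝ) (hc : ∀ i, 0 < c i) :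
    ∃ η : ℝ, 0 < η ∧ ∃ (r : ℕ) (Φ : Fin r → Matrix (Bits (Fin k)) (Bits (Fin k)) ℂ),
      (∀ l, Commute (Φ l) (lowerSum c)) ∧
      ∀ B : Matrix (Bits (Fin k)) (Bits (Fin k)) ℂ, B.PosSemidef → (1 - B).PosSemidef →
        ∑ l, hsq ((1 - B) * Φ l * lowerSum c * B) ≤ η →
        ∀ a b : Bits (Fin k), (a ≠ 0 ∨ b ≠ 0) →
          ‖(pauli a b * B).trace‖ ≤ 6 * (Nat.choose k (k / 2) : ℝ) + 1 := by
  refine exists_threshold_of c (fun x => -(ones x : ℂ)) (fun i y hy => ?_) _
    (finrank_ker_lowerSum c fun i => (hc i).ne') fun Y hY y hy => ?_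
  · rw [ones_add_single i y hy]
    push_cast
    ring
  · have h := Y.neg_mem (ones_mem c (fun i => (hc i).ne') Y hY y hy)
    rwa [← Matrix.neg_mulVec, Matrix.diagonal_neg] at h

end Vale.Agent.P131
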