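import Mathlib
import Vale.Agent.P131.Defs

/-!
Pinching to the diagonal blocks of a further set of sites.
-/

namespace Vale.Agent.P131

open Matrix Finset
open scoped ComplexOrder

variable {α β : Type} [Fintype α] [DecidableEq α] [Fintype β] [DecidableEq β]

omit [DecidableEq α] [DecidableEq β] in
theorem posSemidef_blockMat {Q : Matrix (Bits (α ⊕ β)) (Bits (α ⊕ β)) ℂ} (hQ : Q.PosSemidef)
    (x : Bits β) : (blockMat Q x).PosSemidef ∧
      blockMat (1 - Q) x = 1 - blockMat Q x := by
  refine ⟨hQ.submatrix _, ?_⟩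
  ext u v
  have h : Sum.elim u x = Sum.elim v x ↔ u = v :=
    ⟨fun h => funext fun i => congrFun h (Sum.inl i), fun h => h ▸ rfl⟩
  simp [blockMat, Matrix.one_apply, h]

private theorem trace_pauli_mul {γ : Type} [Fintype γ] [DecidableEq γ] (a b : Bits γ)
    (M : Matrix (Bits γ) (Bits γ) ℂ) :
    (pauli a b * M).trace = ∑ v, chi (dot b v) * M v (v + a) := by
  simp only [Matrix.trace, Matrix.diag_apply, Matrix.mul_apply, pauli_apply, ite_mul, zero_mul]
  rw [Finset.sum_comm]
  exact sum_congr rfl fun v _ => by rw [Finset.sum_ite_eq']; simp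

omit [DecidableEq α] [DecidableEq β] in
private theorem dot_elim (a v : Bits α) (b y : Bits β) :
    dot (Sum.elim a b) (Sum.elim v y) = dot a v + dot b y := by
  simp [dot, Fintype.sum_sum_type]

private theorem sum_bits_sum {M : Type} [AddCommMonoid M] (g : Bits (α ⊕ β) → M) :
    ∑ p, g p = ∑ u : Bits α, ∑ x : Bits β, g (Sum.elim u x) := by
  rw [← (Equiv.sumArrowEquivProdArrow α β (ZMod 2)).symm.sum_comp g, Fintype.sum_prod_type]
  rfl

theorem sum_trace_blockMat (Q : Matrix (Bits (α ⊕ β)) (Bits (α ⊕ β)) ℂ) (a b : Bits α) :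
    ∑ x : Bits β, (pauli a b * blockMat Q x).trace =
      (pauli (Sum.elim a 0) (Sum.elim b 0) * Q).trace := by
  simp only [trace_pauli_mul]
  rw [sum_bits_sum, Finset.sum_comm]
  refine sum_congr rfl fun v _ => sum_congr rfl fun x _ => ?_
  rw [dot_elim, dot_zero_left, add_zero]
  have h : (Sum.elim v x : Bits (α ⊕ β)) + Sum.elim a 0 = Sum.elim (v + a) x := by
    funext i
    cases i <;> simp
  rw [h]
  rfl

private theorem chi_pair_sum (x y : Bits β) :
    ∑ b : Bits β, chi (dot b x) * chi (dot b y) =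
      if x = y then (2 : ℂ) ^ Fintype.card β else 0 := by
  split_ifs with h
  · simp [h, chi_sq]
  · obtain ⟨i, hi⟩ := Function.ne_iff.mp h
    have hi' : x i + y i = 1 := by
      revert hi
      generalize x i = s
      generalize y i = t
      revert s t
      decide
    have hflip : ∑ b : Bits β, chi (dot b (x + y)) = -∑ b : Bits β, chi (dot b (x + y)) := by
      conv_lhs => rw [← Equiv.sum_comp (Equiv.addRight (Pi.single i 1 : Bits β))
        fun b => chi (dot b (x + y))]
      rw [← Finset.sum_neg_distrib]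
      refine sum_congr rfl fun b _ => ?_
      simp [dot_add_left, chi_add, dot_single_left, hi', chi_one]
    simp only [← chi_add, ← dot_add_right]
    linear_combination (1 / 2 : ℂ) * hflip

private theorem corner_entry (X Q : Matrix (Bits (α ⊕ β)) (Bits (α ⊕ β)) ℂ)
    (A : Matrix (Bits α) (Bits α) ℂ) (b : Bits β) (p q : Bits (α ⊕ β)) :
    (X * (pauli (0 : Bits (α ⊕ β)) (Sum.elim (0 : Bits α) b) * liftMat (β := β) A) * Q) p q =
      ∑ y : Bits β, chi (dot b y) *
        ∑ t, ∑ v, X p (Sum.elim v y) * A v t * Q (Sum.elim t y) q := by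
  have hZ : ∀ r s : Bits (α ⊕ β),
      (pauli (0 : Bits (α ⊕ β)) (Sum.elim (0 : Bits α) b) * liftMat (β := β) A) r s =
      chi (dot (Sum.elim (0 : Bits α) b) r) * liftMat A r s := fun r s => by
    simp [Matrix.mul_apply, pauli_apply]
  have hL : ∀ (v t : Bits α) (y z : Bits β), liftMat A (Sum.elim v y) (Sum.elim t z) =
      if y = z then A v t else 0 :=
    fun v t y z => by by_cases h : y = z <;> simp [liftMat, h]
  simp only [Matrix.mul_apply (M := X * (pauli 0 (Sum.elim 0 b) * liftMat A)),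
    Matrix.mul_apply (M := X), hZ, Finset.sum_mul, sum_bits_sum, hL, dot_elim, dot_zero_left,
    zero_add, mul_ite, mul_zero, ite_mul, zero_mul]
  simp only [Finset.sum_ite_eq', mem_univ, if_true, Finset.mul_sum]
  rw [Finset.sum_comm]
  refine sum_congr rfl fun y _ => sum_congr rfl fun t _ => sum_congr rfl fun v _ => ?_
  ring

theorem sum_hsq_blockMat_le (Q : Matrix (Bits (α ⊕ β)) (Bits (α ⊕ β)) ℂ)
    (A : Matrix (Bits α) (Bits α) ℂ) :
    2 ^ Fintype.card β * ∑ x : Bits β, hsq ((1 - blockMat Q x) * A * blockMat Q x) ≤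
      ∑ b : Bits β, hsq ((1 - Q) * (pauli 0 (Sum.elim 0 b) * liftMat A) * Q) := by
  let M : Bits β → Matrix (Bits (α ⊕ β)) (Bits (α ⊕ β)) ℂ :=
    fun b => (1 - Q) * (pauli (0 : Bits (α ⊕ β)) (Sum.elim (0 : Bits α) b) * liftMat A) * Q
  change _ ≤ ∑ b, hsq (M b)
  have hone : ∀ (x : Bits β) (u v : Bits α),
      (1 - Q) (Sum.elim u x) (Sum.elim v x) = (1 - blockMat Q x) u v := fun x u v => by
    have h : Sum.elim u x = Sum.elim v x ↔ u = v :=
      ⟨fun h => funext fun i => congrFun h (Sum.inl i), fun h => h ▸ rfl⟩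
    simp [blockMat, Matrix.one_apply, h]
  have key : ∀ x u w, ∑ b, chi (dot b x) * M b (Sum.elim u x) (Sum.elim w x) =
      2 ^ Fintype.card β * ((1 - blockMat Q x) * A * blockMat Q x) u w := by
    intro x u w
    simp only [M, corner_entry]
    rw [show ((1 - blockMat Q x) * A * blockMat Q x) u w = ∑ t, ∑ v,
        (1 - Q) (Sum.elim u x) (Sum.elim v x) * A v t * Q (Sum.elim t x) (Sum.elim w x) by
      simp only [hone, Matrix.mul_apply, Finset.sum_mul]
      rfl]
    simp only [Finset.mul_sum (s := (univ : Finset (Bits β))), ← mul_assoc]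
    rw [Finset.sum_comm]
    simp only [← Finset.sum_mul, chi_pair_sum, ite_mul, zero_mul, Finset.sum_ite_eq,
      mem_univ, if_true]
  have step : ∀ x u w, (2 : ℝ) ^ Fintype.card β *
      ‖((1 - blockMat Q x) * A * blockMat Q x) u w‖ ^ 2 ≤
      ∑ b, ‖M b (Sum.elim u x) (Sum.elim w x)‖ ^ 2 := by
    intro x u w
    have h1 : (2 : ℝ) ^ Fintype.card β * ‖((1 - blockMat Q x) * A * blockMat Q x) u w‖ ≤
        ∑ b, ‖M b (Sum.elim u x) (Sum.elim w x)‖ := by
      have h := norm_sum_le univ fun b => chi (dot b x) * M b (Sum.elim u x) (Sum.elim w x)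
      rw [key] at h
      simpa [norm_chi] using h
    have h2 := sq_sum_le_card_mul_sum_sq (s := (univ : Finset (Bits β)))
      (f := fun b => ‖M b (Sum.elim u x) (Sum.elim w x)‖)
    have hc : ((univ : Finset (Bits β)).card : ℝ) = 2 ^ Fintype.card β := by simp
    rw [hc] at h2
    refine le_of_mul_le_mul_left ?_ (by positivity : (0 : ℝ) < 2 ^ Fintype.card β)
    calc (2 : ℝ) ^ Fintype.card β * (2 ^ Fintype.card β * _)
        = ((2 : ℝ) ^ Fintype.card β *
            ‖((1 - blockMat Q x) * A * blockMat Q x) u w‖) ^ 2 := by ring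
      _ ≤ (∑ b, ‖M b (Sum.elim u x) (Sum.elim w x)‖) ^ 2 :=
        pow_le_pow_left₀ (by positivity) h1 2
      _ ≤ _ := h2
  calc 2 ^ Fintype.card β * ∑ x, hsq ((1 - blockMat Q x) * A * blockMat Q x)
      ≤ ∑ x, ∑ u, ∑ w, ∑ b, ‖M b (Sum.elim u x) (Sum.elim w x)‖ ^ 2 := by
        simp only [hsq, Finset.mul_sum]
        gcongr with x _ u _ w _
        exact step x u w
    _ = ∑ b, ∑ x, ∑ u, ∑ w, ‖M b (Sum.elim u x) (Sum.elim w x)‖ ^ 2 := by
        exact (sum_congr rfl fun x _ => (sum_congr rfl fun u _ => Finset.sum_comm).trans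
          Finset.sum_comm).trans Finset.sum_comm
    _ ≤ ∑ b, hsq (M b) := by
        gcongr with b _
        simp only [hsq, sum_bits_sum]
        rw [Finset.sum_comm]
        gcongr with u _ x _ w _
        exact Finset.single_le_sum (f := fun z => ‖M b (Sum.elim u x) (Sum.elim w z)‖ ^ 2)
          (fun z _ => sq_nonneg _) (mem_univ x)

end Vale.Agent.P131
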