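import Mathlib
import Vale.Agent.P131.Pauli

/-!
Site operators, the operator, and exact elements of its commutant.
-/

namespace Vale.Agent.P131

open Finset

/-- The flip at a site. -/
noncomputable def xOp (j : ℕ) : Hil →L[ℂ] Hil := lOp (Finsupp.single j (1, 0))

/-- The flip after the sign at a site. -/
noncomputable def yOp (j : ℕ) : Hil →L[ℂ] Hil := lOp (Finsupp.single j (1, 1))

/-- The sign at a site. -/
noncomputable def zOp (j : ℕ) : Hil →L[ℂ] Hil := lOp (Finsupp.single j (0, 1))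

/-- The lowering operator at a site. -/
noncomputable def nOp (j : ℕ) : Hil →L[ℂ] Hil := (1 / 2 : ℂ) • (xOp j + yOp j)

/-- The raising operator at a site. -/
noncomputable def sOp (j : ℕ) : Hil →L[ℂ] Hil := (1 / 2 : ℂ) • (xOp j - yOp j)

theorem lOp_single_mul (j : ℕ) (p q : ZMod 2 × ZMod 2) :
    lOp (Finsupp.single j p) * lOp (Finsupp.single j q) =
      chi (p.2 * q.1) • lOp (Finsupp.single j (p + q)) := by
  rw [lOp_mul, bet_single_left, Finsupp.single_eq_same, Finsupp.single_add]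

theorem one_add_one_zmod2 : (1 : ZMod 2) + 1 = 0 := by decide

theorem xOp_xOp (j : ℕ) : xOp j * xOp j = 1 := by
  simp [xOp, lOp_single_mul, chi_zero, one_add_one_zmod2, Prod.mk_zero_zero, lOp_zero]

theorem xOp_yOp (j : ℕ) : xOp j * yOp j = zOp j := by
  simp [xOp, yOp, zOp, lOp_single_mul, chi_zero, one_add_one_zmod2]

theorem yOp_xOp (j : ℕ) : yOp j * xOp j = -zOp j := by
  simp [xOp, yOp, zOp, lOp_single_mul, chi_one, one_add_one_zmod2]

theorem yOp_yOp (j : ℕ) : yOp j * yOp j = -1 := by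
  simp [yOp, lOp_single_mul, chi_one, one_add_one_zmod2, Prod.mk_zero_zero, lOp_zero]

theorem zOp_xOp (j : ℕ) : zOp j * xOp j = -yOp j := by
  simp [zOp, yOp, xOp, lOp_single_mul, chi_one]

theorem zOp_yOp (j : ℕ) : zOp j * yOp j = -xOp j := by
  simp [zOp, yOp, xOp, lOp_single_mul, chi_one, one_add_one_zmod2]

theorem xOp_zOp (j : ℕ) : xOp j * zOp j = yOp j := by
  simp [zOp, yOp, xOp, lOp_single_mul, chi_zero]

theorem yOp_zOp (j : ℕ) : yOp j * zOp j = xOp j := by
  simp [zOp, yOp, xOp, lOp_single_mul, chi_zero, one_add_one_zmod2]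

theorem nOp_nOp (j : ℕ) : nOp j * nOp j = 0 := by
  simp only [nOp, smul_mul_smul_comm, add_mul, mul_add, xOp_xOp, xOp_yOp, yOp_xOp, yOp_yOp]
  module

theorem sOp_nOp (j : ℕ) : sOp j * nOp j = (1 / 2 : ℂ) • (1 + zOp j) := by
  simp only [nOp, sOp, smul_mul_smul_comm, sub_mul, mul_add, xOp_xOp, xOp_yOp, yOp_xOp, yOp_yOp]
  module

theorem nOp_sOp (j : ℕ) : nOp j * sOp j = (1 / 2 : ℂ) • (1 - zOp j) := by
  simp only [nOp, sOp, smul_mul_smul_comm, add_mul, mul_sub, xOp_xOp, xOp_yOp, yOp_xOp, yOp_yOp]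
  module

theorem zOp_nOp (j : ℕ) : zOp j * nOp j = -nOp j := by
  simp only [nOp, mul_smul_comm, mul_add, zOp_xOp, zOp_yOp]
  module

theorem nOp_zOp (j : ℕ) : nOp j * zOp j = nOp j := by
  simp only [nOp, smul_mul_assoc, add_mul, xOp_zOp, yOp_zOp]
  module

theorem lOp_single_comm {a j : ℕ} (h : a ≠ j) (p q : ZMod 2 × ZMod 2) :
    Commute (lOp (Finsupp.single a p)) (lOp (Finsupp.single j q)) := by
  refine lOp_comm ?_
  rw [bet_single_left, bet_single_left, Finsupp.single_eq_of_ne h, Finsupp.single_eq_of_ne h.symm]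
  simp

theorem norm_nOp_le (j : ℕ) : ‖nOp j‖ ≤ 1 := by
  rw [nOp, norm_smul]
  have h : ‖xOp j + yOp j‖ ≤ 1 + 1 :=
    (norm_add_le _ _).trans (add_le_add (norm_lOp_le _) (norm_lOp_le _))
  norm_num at *
  linarith

theorem norm_sOp_le (j : ℕ) : ‖sOp j‖ ≤ 1 := by
  rw [sOp, norm_smul]
  have h : ‖xOp j - yOp j‖ ≤ 1 + 1 :=
    (norm_sub_le _ _).trans (add_le_add (norm_lOp_le _) (norm_lOp_le _))
  norm_num at *
  linarith

theorem norm_zOp_le (j : ℕ) : ‖zOp j‖ ≤ 1 := norm_lOp_le _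

theorem comm_nOp {A : Hil →L[ℂ] Hil} {j : ℕ} (h1 : Commute A (xOp j)) (h2 : Commute A (yOp j)) :
    Commute A (nOp j) := (h1.add_right h2).smul_right _

theorem comm_sOp {A : Hil →L[ℂ] Hil} {j : ℕ} (h1 : Commute A (xOp j)) (h2 : Commute A (yOp j)) :
    Commute A (sOp j) := (h1.sub_right h2).smul_right _

theorem nOp_single_comm {a j : ℕ} (h : a ≠ j) (p : ZMod 2 × ZMod 2) :
    Commute (nOp j) (lOp (Finsupp.single a p)) :=
  (comm_nOp (lOp_single_comm h _ _) (lOp_single_comm h _ _)).symm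

theorem sOp_single_comm {a j : ℕ} (h : a ≠ j) (p : ZMod 2 × ZMod 2) :
    Commute (sOp j) (lOp (Finsupp.single a p)) :=
  (comm_sOp (lOp_single_comm h _ _) (lOp_single_comm h _ _)).symm

theorem rOp_nOp_comm (s : Str) (j : ℕ) : Commute (rOp s) (nOp j) :=
  comm_nOp (lOp_rOp_commute _ _).symm (lOp_rOp_commute _ _).symm

/-- The operator: a weighted sum of all lowering operators. -/
noncomputable def theOp (c : ℕ → ℝ) : Hil →L[ℂ] Hil := ∑' j, (c j : ℂ) • nOp j

theorem summable_terms {c : ℕ → ℝ} (hc : Summable c) (h0 : ∀ j, 0 ≤ c j) :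
    Summable fun j => (c j : ℂ) • nOp j := by
  refine Summable.of_norm_bounded hc fun j => ?_
  rw [norm_smul, Complex.norm_real, Real.norm_eq_abs, abs_of_nonneg (h0 j)]
  exact mul_le_of_le_one_right (h0 j) (norm_nOp_le j)

theorem commute_theOp {c : ℕ → ℝ} (hc : Summable c) (h0 : ∀ j, 0 ≤ c j)
    {A : Hil →L[ℂ] Hil} (s : Finset ℕ) (hs : ∀ l ∉ s, Commute A (nOp l))
    (hA : Commute A (∑ l ∈ s, (c l : ℂ) • nOp l)) : Commute A (theOp c) := by
  have hsum := summable_terms hc h0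
  have h1 := (hsum.mul_left A).tsum_sub (hsum.mul_right A)
  rw [hsum.tsum_mul_left, hsum.tsum_mul_right, tsum_eq_sum (s := s)] at h1
  · rw [Finset.sum_sub_distrib, ← Finset.mul_sum, ← Finset.sum_mul, hA.eq, sub_self] at h1
    exact sub_eq_zero.1 h1.symm
  · intro l hl
    rw [((hs l hl).smul_right _).eq, sub_self]

/-- An exact element of the commutant near a product of lowering and raising. -/
noncomputable def exactEl (ε : ℂ) (a j : ℕ) : Hil →L[ℂ] Hil :=
  nOp a * sOp j + (ε / 2) • (1 + zOp a * zOp j) + ε ^ 2 • (sOp a * nOp j)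

theorem exactEl_comm_left (ε : ℂ) {a j : ℕ} (h : a ≠ j) :
    exactEl ε a j * nOp a - nOp a * exactEl ε a j =
      -(ε • (nOp a * zOp j)) + ε ^ 2 • (zOp a * nOp j) := by
  have c1 : Commute (sOp j) (nOp a) :=
    comm_nOp (sOp_single_comm h _) (sOp_single_comm h _)
  have c2 : Commute (zOp j) (nOp a) := (nOp_single_comm h.symm _).symm
  have c3 : Commute (nOp j) (nOp a) :=
    comm_nOp (nOp_single_comm h _) (nOp_single_comm h _)
  have e1 : nOp a * sOp j * nOp a = 0 := by rw [mul_assoc, c1.eq, ← mul_assoc, nOp_nOp, zero_mul]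
  have e2 : nOp a * (nOp a * sOp j) = 0 := by rw [← mul_assoc, nOp_nOp, zero_mul]
  have e3 : zOp a * zOp j * nOp a = -(nOp a * zOp j) := by
    rw [mul_assoc, c2.eq, ← mul_assoc, zOp_nOp, neg_mul]
  have e4 : nOp a * (zOp a * zOp j) = nOp a * zOp j := by rw [← mul_assoc, nOp_zOp]
  have e5 : sOp a * nOp j * nOp a - nOp a * (sOp a * nOp j) = zOp a * nOp j := by
    rw [mul_assoc, c3.eq, ← mul_assoc, ← mul_assoc, ← sub_mul, sOp_nOp, nOp_sOp]
    congr 1
    module
  rw [← e5]
  simp only [exactEl, add_mul, mul_add, smul_mul_assoc, mul_smul_comm, one_mul, mul_one, e1, e2,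
    e3, e4]
  module

theorem exactEl_comm_right (ε : ℂ) {a j : ℕ} (h : a ≠ j) :
    exactEl ε a j * nOp j - nOp j * exactEl ε a j =
      nOp a * zOp j - ε • (zOp a * nOp j) := by
  have c1 : Commute (nOp j) (nOp a) :=
    comm_nOp (nOp_single_comm h _) (nOp_single_comm h _)
  have c2 : Commute (nOp j) (zOp a) := nOp_single_comm h _
  have c3 : Commute (nOp j) (sOp a) :=
    comm_sOp (nOp_single_comm h _) (nOp_single_comm h _)
  have e1 : nOp a * sOp j * nOp j - nOp j * (nOp a * sOp j) = nOp a * zOp j := by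
    rw [← mul_assoc (nOp j), c1.eq, mul_assoc, mul_assoc, ← mul_sub, sOp_nOp, nOp_sOp]
    congr 1
    module
  have e3 : zOp a * zOp j * nOp j = -(zOp a * nOp j) := by rw [mul_assoc, zOp_nOp, mul_neg]
  have e4 : nOp j * (zOp a * zOp j) = zOp a * nOp j := by
    rw [← mul_assoc, c2.eq, mul_assoc, nOp_zOp]
  have e5 : sOp a * nOp j * nOp j = 0 := by rw [mul_assoc, nOp_nOp, mul_zero]
  have e6 : nOp j * (sOp a * nOp j) = 0 := by
    rw [← mul_assoc, c3.eq, mul_assoc, nOp_nOp, mul_zero]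
  rw [← e1]
  simp only [exactEl, add_mul, mul_add, smul_mul_assoc, mul_smul_comm, one_mul, mul_one,
    e3, e4, e5, e6]
  module

theorem exactEl_commute {c : ℕ → ℝ} (hc : Summable c) (h0 : ∀ j, 0 < c j) {a j : ℕ} (h : a ≠ j) :
    Commute (exactEl ((c j / c a : ℝ) : ℂ) a j) (theOp c) := by
  refine commute_theOp hc (fun l => (h0 l).le) {a, j} ?_ ?_
  · intro l hl
    simp only [mem_insert, mem_singleton, not_or] at hl
    have za : Commute (nOp l) (zOp a) := nOp_single_comm (Ne.symm hl.1) _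
    have zj : Commute (nOp l) (zOp j) := nOp_single_comm (Ne.symm hl.2) _
    have na : Commute (nOp l) (nOp a) :=
      comm_nOp (nOp_single_comm (Ne.symm hl.1) _) (nOp_single_comm (Ne.symm hl.1) _)
    have nj : Commute (nOp l) (nOp j) :=
      comm_nOp (nOp_single_comm (Ne.symm hl.2) _) (nOp_single_comm (Ne.symm hl.2) _)
    have sa : Commute (nOp l) (sOp a) :=
      comm_sOp (nOp_single_comm (Ne.symm hl.1) _) (nOp_single_comm (Ne.symm hl.1) _)
    have sj : Commute (nOp l) (sOp j) :=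
      comm_sOp (nOp_single_comm (Ne.symm hl.2) _) (nOp_single_comm (Ne.symm hl.2) _)
    exact (((na.mul_right sj).add_right
      (((Commute.one_right _).add_right (za.mul_right zj)).smul_right _)).add_right
        ((sa.mul_right nj).smul_right _)).symm
  · rw [sum_pair h, commute_iff_eq, ← sub_eq_zero]
    have hl := exactEl_comm_left ((c j / c a : ℝ) : ℂ) h
    have hr := exactEl_comm_right ((c j / c a : ℝ) : ℂ) h
    have hd : ((c j / c a : ℝ) : ℂ) * (c a : ℂ) = (c j : ℂ) := by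
      rw [← Complex.ofReal_mul, div_mul_cancel₀ _ (h0 a).ne']
    rw [mul_add, add_mul, mul_smul_comm, smul_mul_assoc, mul_smul_comm, smul_mul_assoc,
      show ∀ p q r s : Hil →L[ℂ] Hil, p + q - (r + s) = (p - r) + (q - s) from
        fun p q r s => by abel, ← smul_sub, ← smul_sub, hl, hr, ← hd]
    module

theorem norm_exactEl_sub_le {ε : ℝ} (h0 : 0 ≤ ε) (h1 : ε ≤ 1) (a j : ℕ) :
    ‖exactEl (ε : ℂ) a j - nOp a * sOp j‖ ≤ 2 * ε ∧ ‖exactEl (ε : ℂ) a j‖ ≤ 3 := by
  have hz : ‖(1 : Hil →L[ℂ] Hil) + zOp a * zOp j‖ ≤ 2 := by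
    refine (norm_add_le _ _).trans ?_
    have := norm_mul_le (zOp a) (zOp j)
    have h2 := ContinuousLinearMap.norm_id_le (𝕜 := ℂ) (E := Hil)
    have h3 := mul_le_one₀ (norm_zOp_le a) (norm_nonneg _) (norm_zOp_le j)
    rw [ContinuousLinearMap.one_def]
    linarith
  have hs : ‖sOp a * nOp j‖ ≤ 1 :=
    (norm_mul_le _ _).trans (mul_le_one₀ (norm_sOp_le a) (norm_nonneg _) (norm_nOp_le j))
  have hn : ‖nOp a * sOp j‖ ≤ 1 :=
    (norm_mul_le _ _).trans (mul_le_one₀ (norm_nOp_le a) (norm_nonneg _) (norm_sOp_le j))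
  have key : ‖exactEl (ε : ℂ) a j - nOp a * sOp j‖ ≤ 2 * ε := by
    rw [show exactEl (ε : ℂ) a j - nOp a * sOp j = ((ε : ℂ) / 2) • (1 + zOp a * zOp j) +
      (ε : ℂ) ^ 2 • (sOp a * nOp j) from by rw [exactEl]; abel]
    refine (norm_add_le _ _).trans ?_
    rw [norm_smul, norm_smul, norm_div, norm_pow, Complex.norm_real, Real.norm_eq_abs,
      abs_of_nonneg h0, Complex.norm_two]
    nlinarith [norm_nonneg ((1 : Hil →L[ℂ] Hil) + zOp a * zOp j), norm_nonneg (sOp a * nOp j)]
  refine ⟨key, ?_⟩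
  have := norm_le_norm_sub_add (exactEl (ε : ℂ) a j) (nOp a * sOp j)
  linarith

/-- The string of signs on a finite set of sites. -/
noncomputable def zStr (F : Finset ℕ) : Str := ∑ j ∈ F, Finsupp.single j (0, 1)

/-- The product of signs on a finite set of sites. -/
noncomputable def zProd (F : Finset ℕ) : Hil →L[ℂ] Hil := lOp (zStr F)

theorem zStr_apply (F : Finset ℕ) (l : ℕ) : zStr F l = if l ∈ F then (0, 1) else 0 := by
  rw [zStr, Finsupp.finsetSum_apply]
  simp [Finsupp.single_apply]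

theorem zProd_insert {j : ℕ} {F : Finset ℕ} (h : j ∉ F) :
    zProd (insert j F) = zOp j * zProd F := by
  rw [zProd, zProd, zOp, lOp_mul, bet_single_left, zStr_apply, zStr, zStr, sum_insert h]
  simp [h, chi_zero]

theorem norm_zProd_le (F : Finset ℕ) : ‖zProd F‖ ≤ 1 := norm_lOp_le _

theorem zProd_single_comm {a : ℕ} {F : Finset ℕ} (h : a ∉ F) (p : ZMod 2 × ZMod 2) :
    Commute (zProd F) (lOp (Finsupp.single a p)) := by
  refine lOp_comm ?_
  rw [bet_single_left, zStr_apply, if_neg h]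
  refine (bet_eq_zero_of_left fun l => ?_).trans (by simp)
  rcases eq_or_ne l a with rfl | hl
  · simp [zStr_apply, h]
  · simp [Finsupp.single_eq_of_ne hl]

theorem zProd_nOp_comm {a : ℕ} {F : Finset ℕ} (h : a ∉ F) : Commute (zProd F) (nOp a) :=
  comm_nOp (zProd_single_comm h _) (zProd_single_comm h _)

/-- Sign products times a lowering operator are near the commutant. -/
theorem exists_near {c θ : ℕ → ℝ} (hc : Summable c) (h0 : ∀ j, 0 < c j)
    (hθ : ∀ a j, a < j → c j / c a ≤ θ j) (hθ1 : ∀ j, θ j ≤ 1) (F : Finset ℕ) :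
    ∀ a, (∀ l ∈ F, a < l) → ∃ G, Commute G (theOp c) ∧
      ‖zProd F * nOp a - G‖ ≤ 4 * ∑ l ∈ F, 7 ^ (F.filter (· < l)).card * θ l := by
  induction F using Finset.induction_on_min with
  | empty =>
    intro a _
    refine ⟨nOp a, commute_theOp hc (fun l => (h0 l).le) {a} (fun l hl => ?_) ?_, ?_⟩
    · simp only [mem_singleton] at hl
      exact comm_nOp (nOp_single_comm (Ne.symm (Ne.symm hl)) _)
        (nOp_single_comm (Ne.symm (Ne.symm hl)) _)
    · rw [sum_singleton]
      exact (Commute.refl _).smul_right _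
    · simp [zProd, zStr, lOp_zero]
  | insert j F hj IH =>
    intro a ha
    have hjF : j ∉ F := fun h => lt_irrefl _ (hj j h)
    have haj : a < j := ha j (mem_insert_self _ _)
    have haF : ∀ l ∈ F, a < l := fun l hl => ha l (mem_insert_of_mem hl)
    obtain ⟨G1, hG1, e1⟩ := IH a haF
    obtain ⟨G2, hG2, e2⟩ := IH j hj
    set ε : ℝ := c j / c a
    have hε0 : 0 ≤ ε := (div_pos (h0 j) (h0 a)).le
    have hε1 : ε ≤ 1 := (hθ a j haj).trans (hθ1 j)
    obtain ⟨x1, x2⟩ := norm_exactEl_sub_le hε0 hε1 a j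
    refine ⟨(2 : ℂ) • (exactEl (ε : ℂ) a j * G2) - G1,
      (((exactEl_commute hc h0 haj.ne).mul_left hG2).smul_left _).sub_left hG1, ?_⟩
    have key : zProd (insert j F) * nOp a =
        (2 : ℂ) • (nOp a * sOp j * (zProd F * nOp j)) - zProd F * nOp a := by
      have hna : Commute (nOp a) (zProd F) :=
        (zProd_nOp_comm fun h => lt_irrefl _ (haF a h)).symm
      have hnj : Commute (nOp j) (zProd F) := (zProd_nOp_comm hjF).symm
      have hsa : Commute (sOp j) (nOp a) :=
        comm_nOp (sOp_single_comm haj.ne _) (sOp_single_comm haj.ne _)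
      have hnn : Commute (nOp j) (nOp a) :=
        comm_nOp (nOp_single_comm haj.ne _) (nOp_single_comm haj.ne _)
      have hz : zOp j = (2 : ℂ) • (sOp j * nOp j) - 1 := by
        rw [sOp_nOp]
        module
      rw [zProd_insert hjF, hz, sub_mul, one_mul, sub_mul, smul_mul_assoc, smul_mul_assoc]
      congr 2
      rw [← hnj.eq, mul_assoc (sOp j) (nOp j), mul_assoc (sOp j), mul_assoc (nOp j), ← hna.eq,
        ← mul_assoc (nOp j) (nOp a), hnn.eq, mul_assoc (nOp a) (nOp j), ← mul_assoc (sOp j),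
        hsa.eq]
    have hsum : ∑ l ∈ insert j F, (7 : ℝ) ^ ((insert j F).filter (· < l)).card * θ l =
        θ j + 7 * ∑ l ∈ F, 7 ^ (F.filter (· < l)).card * θ l := by
      rw [sum_insert hjF]
      congr 1
      · have : (insert j F).filter (· < j) = ∅ := by
          refine filter_eq_empty_iff.2 fun l hl => ?_
          rcases mem_insert.1 hl with rfl | hl
          · exact lt_irrefl _
          · exact not_lt.2 (hj l hl).le
        simp [this]
      · rw [mul_sum]
        refine sum_congr rfl fun l hl => ?_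
        rw [filter_insert, if_pos (hj l hl), card_insert_of_notMem (by simp [hjF]), pow_succ]
        ring
    rw [hsum, key]
    have hZ : ‖zProd F * nOp j‖ ≤ 1 :=
      (norm_mul_le _ _).trans (mul_le_one₀ (norm_zProd_le F) (norm_nonneg _) (norm_nOp_le j))
    have hA : ‖nOp a * sOp j * (zProd F * nOp j) - exactEl (ε : ℂ) a j * G2‖ ≤
        2 * ε + 3 * (4 * ∑ l ∈ F, 7 ^ (F.filter (· < l)).card * θ l) := by
      rw [show nOp a * sOp j * (zProd F * nOp j) - exactEl (ε : ℂ) a j * G2 =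
        (nOp a * sOp j - exactEl (ε : ℂ) a j) * (zProd F * nOp j) +
          exactEl (ε : ℂ) a j * (zProd F * nOp j - G2) from by rw [sub_mul, mul_sub]; abel]
      refine (norm_add_le _ _).trans (add_le_add ?_ ?_)
      · refine (norm_mul_le _ _).trans ?_
        rw [norm_sub_rev]
        exact (mul_le_mul x1 hZ (norm_nonneg _) (by linarith)).trans (mul_one _).le
      · exact (norm_mul_le _ _).trans (mul_le_mul x2 e2 (norm_nonneg _) (by norm_num))
    have heq : (2 : ℂ) • (nOp a * sOp j * (zProd F * nOp j)) - zProd F * nOp a -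
        ((2 : ℂ) • (exactEl (ε : ℂ) a j * G2) - G1) =
        (2 : ℂ) • (nOp a * sOp j * (zProd F * nOp j) - exactEl (ε : ℂ) a j * G2) -
          (zProd F * nOp a - G1) := by module
    rw [heq]
    refine (norm_sub_le _ _).trans ?_
    rw [norm_smul, Complex.norm_two]
    have := hθ a j haj
    linarith

end Vale.Agent.P131
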