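import Mathlib
import Vale.Agent.P131.Defs

/-!
Stages as representations of bit matrices, compressions of commutant projections, approximation.
-/

namespace Vale.Agent.P131

open Matrix Finset Filter
open scoped ComplexOrder InnerProductSpace Topology MatrixOrder

variable {α β : Type} [Fintype α] [DecidableEq α] [Fintype β] [DecidableEq β]

/-- Orthogonality of the characters. -/
theorem chi_dot_orth (x y : Bits α) :
    ∑ b : Bits α, chi (dot b x) * chi (dot b y) =
      if x = y then (2 : ℂ) ^ Fintype.card α else 0 := by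
  split_ifs with h
  · simp [h, chi_sq]
  · obtain ⟨i, hi⟩ := Function.ne_iff.mp h
    have hxy : x i + y i = 1 := by
      rcases zmod2_cases (x i) with hx | hx <;> rcases zmod2_cases (y i) with hy | hy <;>
        simp_all
    have hs : ∑ b : Bits α, chi (dot b x) * chi (dot b y) =
        -∑ b : Bits α, chi (dot b x) * chi (dot b y) := by
      conv_lhs => rw [← Equiv.sum_comp (Equiv.addRight (Pi.single i (1 : ZMod 2)))]
      rw [← Finset.sum_neg_distrib]
      refine sum_congr rfl fun b _ => ?_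
      simp only [Equiv.coe_addRight, dot_add_left, dot_single_left, chi_add]
      calc chi (dot b x) * chi (x i) * (chi (dot b y) * chi (y i))
          = chi (dot b x) * chi (dot b y) * chi (x i + y i) := by rw [chi_add]; ring
        _ = -(chi (dot b x) * chi (dot b y)) := by rw [hxy, chi_one]; ring
    linear_combination (1 / 2 : ℂ) * hs

theorem two_pow_ne : ((2 : ℂ) ^ Fintype.card α) ≠ 0 := pow_ne_zero _ two_ne_zero

theorem coef_apply (a b : Bits α) (M : Matrix (Bits α) (Bits α) ℂ) :
    coef a b M = ((2 : ℂ) ^ Fintype.card α)⁻¹ * ∑ y, chi (dot b y) * M (y + a) y := rfl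

theorem coef_pauli (a b a' b' : Bits α) :
    coef a' b' (pauli a b) = if a' = a ∧ b' = b then 1 else 0 := by
  rw [coef_apply]
  rcases eq_or_ne a' a with rfl | ha
  · simp only [pauli_apply, if_true, true_and]
    simp_rw [dot_comm b' _, dot_comm b _]
    rw [chi_dot_orth]
    split_ifs <;> simp
  · have : ∀ y : Bits α, ¬(y + a' = y + a) := fun y h => ha (add_left_cancel h)
    simp [pauli_apply, this, ha]

theorem pauli_sum (M : Matrix (Bits α) (Bits α) ℂ) :
    ∑ p : Bits α × Bits α, coef p.1 p.2 M • pauli p.1 p.2 = M := by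
  ext x y
  rw [Matrix.sum_apply, Fintype.sum_prod_type, Finset.sum_eq_single (y + x)]
  · simp only [Matrix.smul_apply, smul_eq_mul, pauli_apply,
      show y + (y + x) = x by rw [← add_assoc, bits_add_self, zero_add], if_true, coef_apply,
      mul_sum, sum_mul]
    rw [Finset.sum_comm]
    have hz : ∀ z : Bits α, ∑ b : Bits α,
        ((2 : ℂ) ^ Fintype.card α)⁻¹ * (chi (dot b z) * M (z + (y + x)) z) * chi (dot b y) =
        if z = y then M (z + (y + x)) z else 0 := by
      intro z
      calc _ = ((2 : ℂ) ^ Fintype.card α)⁻¹ * M (z + (y + x)) z *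
            ∑ b : Bits α, chi (dot b z) * chi (dot b y) := by
              rw [mul_sum]; exact sum_congr rfl fun b _ => by ring
        _ = _ := by
              rw [chi_dot_orth]
              split_ifs
              · field_simp
              · simp
    simp_rw [hz]
    rw [Finset.sum_ite_eq' Finset.univ y, if_pos (mem_univ _), ← add_assoc, bits_add_self,
      zero_add]
  · intro a _ ha
    have : x ≠ y + a := fun h => ha (by rw [h, ← add_assoc, bits_add_self, zero_add])
    simp [pauli_apply, this]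
  · simp

theorem matrix_induction {p : Matrix (Bits α) (Bits α) ℂ → Prop} (h0 : p 0)
    (hadd : ∀ M M', p M → p M' → p (M + M')) (hs : ∀ (r : ℂ) a b, p (r • pauli a b))
    (M : Matrix (Bits α) (Bits α) ℂ) : p M := by
  rw [← pauli_sum M]
  exact Finset.sum_induction _ p hadd h0 fun q _ => hs _ _ _

theorem emb_zero (f : α → ℕ) : emb f 0 0 = 0 := by simp [emb, Prod.mk_zero_zero]

theorem emb_add (f : α → ℕ) (a b a' b' : Bits α) :
    emb f (a + a') (b + b') = emb f a b + emb f a' b' := by
  simp [emb, ← sum_add_distrib, ← Finsupp.single_add]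

theorem emb_apply {f : α → ℕ} (hf : Function.Injective f) (a b : Bits α) (i : α) :
    emb f a b (f i) = (a i, b i) := by
  rw [emb, Finsupp.finsetSum_apply, Finset.sum_eq_single i]
  · simp
  · intro j _ hj
    rw [Finsupp.single_eq_of_ne (fun h => hj (hf h).symm)]
  · simp

theorem emb_apply_out (f : α → ℕ) (a b : Bits α) {l : ℕ} (h : ∀ i, f i ≠ l) :
    emb f a b l = 0 := by
  rw [emb, Finsupp.finsetSum_apply]
  exact sum_eq_zero fun j _ => Finsupp.single_eq_of_ne (h j).symm

theorem emb_injective {f : α → ℕ} (hf : Function.Injective f) :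
    Function.Injective fun p : Bits α × Bits α => emb f p.1 p.2 := by
  intro p q h
  have h' : ∀ i, (p.1 i, p.2 i) = (q.1 i, q.2 i) := fun i => by
    rw [← emb_apply hf p.1 p.2 i, ← emb_apply hf q.1 q.2 i]
    exact DFunLike.congr_fun h (f i)
  exact Prod.ext (funext fun i => congrArg Prod.fst (h' i))
    (funext fun i => congrArg Prod.snd (h' i))

theorem bet_emb {f : α → ℕ} (hf : Function.Injective f) (a b a' b' : Bits α) :
    bet (emb f a b) (emb f a' b') = dot b a' := by
  have h : ∀ s : Finset α, bet (∑ i ∈ s, Finsupp.single (f i) (a i, b i)) (emb f a' b') =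
      ∑ i ∈ s, b i * a' i := by
    intro s
    induction s using Finset.induction_on with
    | empty => simp [bet_zero_left]
    | insert i s hi IH =>
      rw [sum_insert hi, sum_insert hi, bet_add_left, IH, bet_single_left, emb_apply hf]
  exact h univ

theorem piRep_def (f : α → ℕ) (M : Matrix (Bits α) (Bits α) ℂ) :
    piRep f M = ∑ p : Bits α × Bits α, coef p.1 p.2 M • lOp (emb f p.1 p.2) := by
  simp [piRep, LinearMap.sum_apply]

theorem rhoRep_def (f : α → ℕ) (M : Matrix (Bits α) (Bits α) ℂ) :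
    rhoRep f M = ∑ p : Bits α × Bits α, coef p.1 p.2 M • rOp (emb f p.1 p.2) := by
  simp [rhoRep, LinearMap.sum_apply]

theorem piRep_pauli (f : α → ℕ) (a b : Bits α) : piRep f (pauli a b) = lOp (emb f a b) := by
  rw [piRep_def, Finset.sum_eq_single (a, b)]
  · simp [coef_pauli]
  · intro p _ hp
    rw [coef_pauli, if_neg (fun h => hp (Prod.ext h.1 h.2)), zero_smul]
  · simp

theorem rhoRep_pauli (f : α → ℕ) (a b : Bits α) : rhoRep f (pauli a b) = rOp (emb f a b) := by
  rw [rhoRep_def, Finset.sum_eq_single (a, b)]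
  · simp [coef_pauli]
  · intro p _ hp
    rw [coef_pauli, if_neg (fun h => hp (Prod.ext h.1 h.2)), zero_smul]
  · simp

theorem piRep_one (f : α → ℕ) : piRep f 1 = 1 := by
  rw [← pauli_zero, piRep_pauli, emb_zero, lOp_zero]

theorem rhoRep_one (f : α → ℕ) : rhoRep f 1 = 1 := by
  rw [← pauli_zero, rhoRep_pauli, emb_zero, rOp_zero]

theorem piRep_mul {f : α → ℕ} (hf : Function.Injective f) (M M' : Matrix (Bits α) (Bits α) ℂ) :
    piRep f (M * M') = piRep f M * piRep f M' := by
  induction M using matrix_induction with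
  | h0 => simp
  | hadd A B hA hB => simp [add_mul, hA, hB]
  | hs r a b =>
    induction M' using matrix_induction with
    | h0 => simp
    | hadd A B hA hB => rw [mul_add, map_add, map_add, mul_add, hA, hB]
    | hs r' a' b' =>
      simp [smul_mul_smul_comm, pauli_mul, piRep_pauli, lOp_mul, bet_emb hf, emb_add]

theorem rhoRep_mul {f : α → ℕ} (hf : Function.Injective f) (M M' : Matrix (Bits α) (Bits α) ℂ) :
    rhoRep f (M * M') = rhoRep f M' * rhoRep f M := by
  induction M using matrix_induction with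
  | h0 => simp
  | hadd A B hA hB => simp [add_mul, mul_add, hA, hB]
  | hs r a b =>
    induction M' using matrix_induction with
    | h0 => simp
    | hadd A B hA hB => rw [mul_add, map_add, map_add, add_mul, hA, hB]
    | hs r' a' b' =>
      simp [smul_mul_smul_comm, pauli_mul, rhoRep_pauli, rOp_mul, bet_emb hf, emb_add, smul_smul,
        mul_left_comm r' r]

theorem piRep_evec (f : α → ℕ) (M : Matrix (Bits α) (Bits α) ℂ) :
    piRep f M (evec 0) = rhoRep f M (evec 0) := by
  simp [piRep_def, rhoRep_def, lOp_evec, rOp_evec]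

theorem piRep_evec_eq (f : α → ℕ) (M : Matrix (Bits α) (Bits α) ℂ) :
    piRep f M (evec 0) = ∑ p : Bits α × Bits α, coef p.1 p.2 M • evec (emb f p.1 p.2) := by
  simp [piRep_def, lOp_evec]

theorem liftMat_add (A B : Matrix (Bits α) (Bits α) ℂ) :
    (liftMat (A + B) : Matrix (Bits (α ⊕ β)) (Bits (α ⊕ β)) ℂ) = liftMat A + liftMat B := by
  ext p q
  simp only [liftMat, of_apply, Matrix.add_apply]
  split_ifs <;> simp

theorem liftMat_smul (r : ℂ) (A : Matrix (Bits α) (Bits α) ℂ) :
    (liftMat (r • A) : Matrix (Bits (α ⊕ β)) (Bits (α ⊕ β)) ℂ) = r • liftMat A := by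
  ext p q
  simp [liftMat]

theorem liftMat_pauli (a b : Bits α) :
    (liftMat (pauli a b) : Matrix (Bits (α ⊕ β)) (Bits (α ⊕ β)) ℂ) =
      pauli (Sum.elim a 0) (Sum.elim b 0) := by
  ext p q
  have hd : dot (Sum.elim b (0 : Bits β)) q = dot b (q ∘ Sum.inl) := by
    simp [dot, Fintype.sum_sum_type]
  have hiff : p = q + Sum.elim a 0 ↔
      p ∘ Sum.inr = q ∘ Sum.inr ∧ p ∘ Sum.inl = q ∘ Sum.inl + a := by
    constructor
    · rintro rfl
      exact ⟨by ext i; simp, by ext i; simp⟩
    · rintro ⟨h1, h2⟩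
      ext (i | i)
      · simpa using congrFun h2 i
      · simpa using congrFun h1 i
  simp only [liftMat, of_apply, pauli_apply, hd, hiff]
  split_ifs <;> simp_all

theorem emb_elim (f : α ⊕ β → ℕ) (a b : Bits α) :
    emb f (Sum.elim a 0) (Sum.elim b 0) = emb (f ∘ Sum.inl) a b := by
  simp [emb, Fintype.sum_sum_type, Prod.mk_zero_zero]

theorem liftMat_zero :
    (liftMat (0 : Matrix (Bits α) (Bits α) ℂ) : Matrix (Bits (α ⊕ β)) (Bits (α ⊕ β)) ℂ) = 0 := by
  ext p q
  simp [liftMat]

theorem piRep_liftMat (f : α ⊕ β → ℕ) (A : Matrix (Bits α) (Bits α) ℂ) :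
    piRep f (liftMat A) = piRep (f ∘ Sum.inl) A := by
  induction A using matrix_induction with
  | h0 => simp [liftMat_zero]
  | hadd A B hA hB => simp [liftMat_add, hA, hB]
  | hs r a b => simp [liftMat_smul, liftMat_pauli, piRep_pauli, emb_elim]

theorem rhoRep_liftMat (f : α ⊕ β → ℕ) (A : Matrix (Bits α) (Bits α) ℂ) :
    rhoRep f (liftMat A) = rhoRep (f ∘ Sum.inl) A := by
  induction A using matrix_induction with
  | h0 => simp [liftMat_zero]
  | hadd A B hA hB => simp [liftMat_add, hA, hB]
  | hs r a b => simp [liftMat_smul, liftMat_pauli, rhoRep_pauli, emb_elim]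

theorem pauli_conjTranspose (a b : Bits α) : (pauli a b)ᴴ = chi (dot b a) • pauli a b := by
  ext x y
  simp only [conjTranspose_apply, Matrix.smul_apply, smul_eq_mul, pauli_apply]
  by_cases h : x = y + a
  · have h' : y = x + a := by rw [h, add_assoc, bits_add_self, add_zero]
    rw [if_pos h', if_pos h, chi_star, h, dot_add_right, chi_add]
    ring
  · have h' : ¬(y = x + a) := fun h0 => h (by rw [h0, add_assoc, bits_add_self, add_zero])
    simp [h, h']

theorem star_piRep {f : α → ℕ} (hf : Function.Injective f)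
    (M : Matrix (Bits α) (Bits α) ℂ) : star (piRep f M) = piRep f Mᴴ := by
  induction M using matrix_induction with
  | h0 => simp
  | hadd A B hA hB => simp [hA, hB]
  | hs r a b => simp [piRep_pauli, pauli_conjTranspose, lOp_star, bet_emb hf, smul_smul]

theorem star_rhoRep {f : α → ℕ} (hf : Function.Injective f)
    (M : Matrix (Bits α) (Bits α) ℂ) : star (rhoRep f M) = rhoRep f Mᴴ := by
  induction M using matrix_induction with
  | h0 => simp
  | hadd A B hA hB => simp [hA, hB]
  | hs r a b => simp [rhoRep_pauli, pauli_conjTranspose, rOp_star, bet_emb hf, smul_smul]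

theorem inner_star_left (A : Hil →L[ℂ] Hil) (x y : Hil) :
    ⟪star A x, y⟫_ℂ = ⟪x, A y⟫_ℂ := by
  rw [ContinuousLinearMap.star_eq_adjoint, ContinuousLinearMap.adjoint_inner_left]

theorem trace_eq_evec {f : α → ℕ} (hf : Function.Injective f)
    (M : Matrix (Bits α) (Bits α) ℂ) :
    M.trace = 2 ^ Fintype.card α * piRep f M (evec 0) 0 := by
  have h : piRep f M (evec 0) 0 = coef 0 0 M := by
    rw [piRep_evec_eq, lp.coeFn_sum, Finset.sum_apply, Finset.sum_eq_single (0, 0)]
    · simp [lp.coeFn_smul, evec_apply, emb_zero]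
    · intro p _ hp
      have : emb f p.1 p.2 ≠ 0 := fun h0 => hp (emb_injective hf (by simpa [emb_zero] using h0))
      simp [lp.coeFn_smul, evec_apply, this.symm]
    · simp
  rw [h, coef_apply, ← mul_assoc, mul_inv_cancel₀ two_pow_ne, one_mul]
  simp [Matrix.trace, dot_zero_left, chi_zero]

theorem trace_conjTranspose_mul {f : α → ℕ} (hf : Function.Injective f)
    (M N : Matrix (Bits α) (Bits α) ℂ) :
    (Mᴴ * N).trace = 2 ^ Fintype.card α * ⟪piRep f M (evec 0), piRep f N (evec 0)⟫_ℂ := by
  rw [trace_eq_evec hf, piRep_mul hf, ← star_piRep hf, ← evec_inner,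
    ContinuousLinearMap.star_eq_adjoint, mul_apply_eq_comp,
    ContinuousLinearMap.adjoint_inner_right]

theorem norm_sq_piRep_evec {f : α → ℕ} (hf : Function.Injective f)
    (M : Matrix (Bits α) (Bits α) ℂ) :
    ‖piRep f M (evec 0)‖ ^ 2 = hsq M / 2 ^ Fintype.card α := by
  have h := trace_conjTranspose_mul hf M M
  have h2 : (Mᴴ * M).trace = (hsq M : ℂ) := by
    simp only [Matrix.trace, Matrix.diag_apply, Matrix.mul_apply, conjTranspose_apply, hsq,
      Complex.ofReal_sum, RCLike.star_def, Complex.conj_mul']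
    rw [Finset.sum_comm]
    simp
  rw [h2, inner_self_eq_norm_sq_to_K] at h
  rw [eq_div_iff (by positivity), mul_comm]
  refine Complex.ofReal_injective ?_
  simpa using h.symm

theorem coef_compress (f : α → ℕ) (P : Hil →L[ℂ] Hil) (a b : Bits α) :
    coef a b (compress f P) = P (evec 0) (emb f a b) := by
  rw [compress, map_sum, Finset.sum_eq_single (a, b)]
  · simp [coef_pauli]
  · intro p _ hp
    simp only [map_smul, smul_eq_mul, coef_pauli]
    rw [if_neg (fun h => hp (Prod.ext h.1.symm h.2.symm)), mul_zero]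
  · simp

theorem inner_piRep_compress {f : α → ℕ} (hf : Function.Injective f) (P : Hil →L[ℂ] Hil)
    (M : Matrix (Bits α) (Bits α) ℂ) :
    ⟪piRep f M (evec 0), piRep f (compress f P) (evec 0)⟫_ℂ =
      ⟪piRep f M (evec 0), P (evec 0)⟫_ℂ := by
  rw [piRep_evec_eq f M, sum_inner, sum_inner]
  refine sum_congr rfl fun p _ => ?_
  rw [inner_smul_left, inner_smul_left, evec_inner, evec_inner]
  congr 1
  rw [piRep_evec_eq, lp.coeFn_sum, Finset.sum_apply, Finset.sum_eq_single p]
  · simp [lp.coeFn_smul, evec_apply, coef_compress]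
  · intro q _ hq
    have : emb f q.1 q.2 ≠ emb f p.1 p.2 := fun h0 => hq (emb_injective hf h0)
    simp [lp.coeFn_smul, evec_apply, this.symm]
  · simp

theorem compress_one_sub {f : α → ℕ} (hf : Function.Injective f) (P : Hil →L[ℂ] Hil) :
    compress f (1 - P) = 1 - compress f P := by
  have h1 : compress f (1 : Hil →L[ℂ] Hil) = (1 : Matrix (Bits α) (Bits α) ℂ) := by
    rw [compress, Finset.sum_eq_single (0, 0)]
    · simp [evec_apply, emb_zero, pauli_zero]
    · intro p _ hp
      have : emb f p.1 p.2 ≠ 0 := fun h0 => hp (emb_injective hf (by simpa [emb_zero] using h0))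
      simp [evec_apply, this]
    · simp
  rw [← h1]
  simp [compress, sub_smul, sum_sub_distrib]

theorem commute_rhoRep {P : Hil →L[ℂ] Hil} (hc : ∀ s, Commute P (rOp s)) (f : α → ℕ)
    (M : Matrix (Bits α) (Bits α) ℂ) : Commute P (rhoRep f M) := by
  rw [rhoRep_def]
  exact Commute.sum_right _ _ _ fun p _ => (hc _).smul_right _

theorem commute_piRep_rhoRep (f : α → ℕ) (M N : Matrix (Bits α) (Bits α) ℂ) :
    Commute (piRep f M) (rhoRep f N) := by
  rw [piRep_def, rhoRep_def]
  exact Commute.sum_right _ _ _ fun p _ => Commute.sum_left _ _ _ fun q _ =>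
    ((lOp_rOp_commute _ _).smul_left _).smul_right _

theorem inner_self_proj {P : Hil →L[ℂ] Hil} (hs : IsStarProjection P) (x : Hil) :
    ⟪x, P x⟫_ℂ = (‖P x‖ ^ 2 : ℝ) := by
  have h1 : P (P x) = P x := DFunLike.congr_fun hs.isIdempotentElem x
  have h2 := inner_star_left P x (P x)
  rw [hs.isSelfAdjoint.star_eq, h1] at h2
  rw [← h2, inner_self_eq_norm_sq_to_K]
  norm_cast

theorem norm_starProjection_apply_le {P : Hil →L[ℂ] Hil} (hs : IsStarProjection P) (x : Hil) :
    ‖P x‖ ≤ ‖x‖ := by
  have h : ‖P x‖ ^ 2 ≤ ‖x‖ * ‖P x‖ := by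
    refine le_trans ?_ (norm_inner_le_norm (𝕜 := ℂ) x (P x))
    rw [inner_self_proj hs, Complex.norm_real, Real.norm_eq_abs, abs_of_nonneg (sq_nonneg _)]
  rcases (norm_nonneg (P x)).eq_or_lt with h0 | h0
  · rw [← h0]; exact norm_nonneg _
  · exact le_of_mul_le_mul_right (by linarith [sq ‖P x‖]) h0

section
variable {P : Hil →L[ℂ] Hil} (hs : IsStarProjection P) (hc : ∀ s, Commute P (rOp s))
  {f : α → ℕ} (hf : Function.Injective f)
include hs hc hf

theorem trace_sq_mul_compress (N : Matrix (Bits α) (Bits α) ℂ) :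
    ((Nᴴ * N) * compress f P).trace =
      ((2 ^ Fintype.card α * ‖P (rhoRep f Nᴴ (evec 0))‖ ^ 2 : ℝ) : ℂ) := by
  have hM : (Nᴴ * N)ᴴ = Nᴴ * N := by rw [conjTranspose_mul, conjTranspose_conjTranspose]
  have h := trace_conjTranspose_mul hf (Nᴴ * N) (compress f P)
  rw [hM, inner_piRep_compress hf, piRep_evec, rhoRep_mul hf] at h
  rw [h]
  have h3 : (rhoRep f N * rhoRep f Nᴴ) (evec 0) = rhoRep f N (rhoRep f Nᴴ (evec 0)) := rfl
  have h4 : rhoRep f Nᴴ (P (evec 0)) = P (rhoRep f Nᴴ (evec 0)) :=
    (DFunLike.congr_fun (commute_rhoRep hc f Nᴴ).eq (evec 0)).symm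
  have h5 := inner_star_left (rhoRep f Nᴴ) (rhoRep f Nᴴ (evec 0)) (P (evec 0))
  rw [star_rhoRep hf, conjTranspose_conjTranspose, h4, inner_self_proj hs] at h5
  rw [h3, h5]
  push_cast
  rfl

theorem compress_posSemidef : (compress f P).PosSemidef := by
  have key : ∀ v : Bits α → ℂ, 0 ≤ star v ⬝ᵥ (compress f P *ᵥ v) := by
    intro v
    obtain ⟨u⟩ : Nonempty (Bits α) := inferInstance
    let N : Matrix (Bits α) (Bits α) ℂ := of fun x y => if x = u then star (v y) else 0
    have hN : ((Nᴴ * N) * compress f P).trace = star v ⬝ᵥ (compress f P *ᵥ v) := by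
      simp only [Matrix.trace, Matrix.diag_apply, Matrix.mul_apply, conjTranspose_apply, N,
        of_apply, dotProduct, mulVec, Pi.star_apply, mul_sum, sum_mul]
      rw [Finset.sum_comm]
      refine sum_congr rfl fun y _ => sum_congr rfl fun x _ => ?_
      rw [Finset.sum_eq_single u]
      · simp; ring
      · intro z _ hz; simp [hz]
      · simp
    rw [← hN, trace_sq_mul_compress hs hc hf N]
    exact Complex.zero_le_real.2 (by positivity)
  refine Matrix.isPositive_toEuclideanLin_iff.1 ((LinearMap.isPositive_iff_complex _).2 fun x => ?_)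
  have h := key x.ofLp
  rw [Complex.nonneg_iff] at h
  have h' : ⟪(compress f P).toEuclideanLin x, x⟫_ℂ =
      star (star x.ofLp ⬝ᵥ (compress f P *ᵥ x.ofLp)) := by
    rw [EuclideanSpace.inner_eq_star_dotProduct, Matrix.ofLp_toEuclideanLin_apply]
    simp [dotProduct, star_sum, mul_comm]
  rw [h']
  refine ⟨?_, ?_⟩
  · apply Complex.ext <;> simp [← h.2]
  · simpa using h.1

theorem one_sub_compress_posSemidef : (1 - compress f P).PosSemidef := by
  rw [← compress_one_sub hf]
  exact compress_posSemidef hs.one_sub (fun s => (Commute.one_left _).sub_left (hc s)) hf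

theorem norm_rhoRep_compress_le : ‖rhoRep f (compress f P)‖ ≤ 1 := by
  have fac : ∀ A : Matrix (Bits α) (Bits α) ℂ, A.PosSemidef → ∃ C, A = Cᴴ * C := fun A hA =>
    ⟨CFC.sqrt A, by
      rw [(Matrix.nonneg_iff_posSemidef.1 (CFC.sqrt_nonneg A)).isHermitian.eq,
        CFC.sqrt_mul_sqrt_self A (Matrix.nonneg_iff_posSemidef.2 hA)]⟩
  obtain ⟨C, hC⟩ := fac _ (compress_posSemidef hs hc hf)
  obtain ⟨D, hD⟩ := fac _ (one_sub_compress_posSemidef hs hc hf)
  have hsum : rhoRep f C * rhoRep f Cᴴ + rhoRep f D * rhoRep f Dᴴ = 1 := by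
    rw [← rhoRep_mul hf, ← rhoRep_mul hf, ← hC, ← hD, ← map_add, add_sub_cancel, rhoRep_one]
  have hq : ∀ (A : Matrix (Bits α) (Bits α) ℂ) (x : Hil),
      ⟪x, (rhoRep f A * rhoRep f Aᴴ) x⟫_ℂ = (‖rhoRep f Aᴴ x‖ ^ 2 : ℝ) := by
    intro A x
    have h := inner_star_left (rhoRep f A) x (rhoRep f Aᴴ x)
    rw [star_rhoRep hf] at h
    rw [show (rhoRep f A * rhoRep f Aᴴ) x = rhoRep f A (rhoRep f Aᴴ x) from rfl, ← h,
      inner_self_eq_norm_sq_to_K]
    norm_cast
  have hb : ‖rhoRep f Cᴴ‖ ≤ 1 := by
    refine ContinuousLinearMap.opNorm_le_bound _ zero_le_one fun x => ?_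
    rw [one_mul]
    refine le_of_pow_le_pow_left₀ two_ne_zero (norm_nonneg _) ?_
    have h := congrArg (fun A : Hil →L[ℂ] Hil => ⟪x, A x⟫_ℂ) hsum
    simp only [ContinuousLinearMap.add_apply, inner_add_right, hq,
      ContinuousLinearMap.one_apply, inner_self_eq_norm_sq_to_K] at h
    have h2 : ‖rhoRep f Cᴴ x‖ ^ 2 + ‖rhoRep f Dᴴ x‖ ^ 2 = ‖x‖ ^ 2 :=
      Complex.ofReal_injective (by simpa using h)
    nlinarith [norm_nonneg (rhoRep f Dᴴ x)]
  have ha : ‖rhoRep f C‖ ≤ 1 := by
    have h := star_rhoRep hf C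
    rw [← norm_star, h]
    exact hb
  rw [hC, rhoRep_mul hf]
  exact (norm_mul_le _ _).trans (mul_le_one₀ ha (norm_nonneg _) hb)

theorem trace_pauli_compress (a b : Bits α) :
    ‖(pauli a b * compress f P).trace‖ = 2 ^ Fintype.card α * ‖P (evec 0) (emb f a b)‖ := by
  have h := trace_conjTranspose_mul hf (pauli a b) (compress f P)
  rw [inner_piRep_compress hf, piRep_pauli, lOp_evec, evec_inner, pauli_conjTranspose,
    smul_mul_assoc, Matrix.trace_smul, smul_eq_mul] at h
  have h' := congrArg norm h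
  simpa [norm_chi] using h'

/-- The key estimate: nearly reduced gives small Hilbert-Schmidt norm of the off corner. -/
theorem hsq_corner_le (M : Matrix (Bits α) (Bits α) ℂ) :
    hsq ((1 - compress f P) * M * compress f P) / 2 ^ Fintype.card α ≤
      (‖((1 - P) * piRep f M * P) (evec 0)‖ + (‖piRep f M‖ + ‖rhoRep f M‖) *
        ‖P (evec 0) - piRep f (compress f P) (evec 0)‖) ^ 2 := by
  rw [← norm_sq_piRep_evec hf]
  refine pow_le_pow_left₀ (norm_nonneg _) ?_ 2
  set Q := compress f P with hQ
  set d := P (evec 0) - piRep f Q (evec 0) with hd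
  have hu : piRep f M (piRep f Q (evec 0)) = rhoRep f (M * Q) (evec 0) := by
    rw [← piRep_evec, piRep_mul hf]
    rfl
  have hT : P (piRep f M (piRep f Q (evec 0))) - piRep f Q (piRep f M (piRep f Q (evec 0))) =
      rhoRep f (M * Q) d := by
    have e1 : P (rhoRep f (M * Q) (evec 0)) = rhoRep f (M * Q) (P (evec 0)) :=
      DFunLike.congr_fun (commute_rhoRep hc f (M * Q)).eq (evec 0)
    have e2 : piRep f Q (rhoRep f (M * Q) (evec 0)) =
        rhoRep f (M * Q) (piRep f Q (evec 0)) :=
      DFunLike.congr_fun (commute_piRep_rhoRep f Q (M * Q)).eq (evec 0)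
    rw [hu, e1, e2, ← map_sub]
  have heq : piRep f ((1 - Q) * M * Q) (evec 0) = ((1 - P) * piRep f M * P) (evec 0) -
      (1 - P) (piRep f M d) + rhoRep f (M * Q) d := by
    rw [piRep_mul hf, piRep_mul hf, map_sub, piRep_one, ← hT, hd]
    simp only [ContinuousLinearMap.mul_apply, _root_.sub_apply,
      ContinuousLinearMap.one_apply, map_sub]
    abel
  rw [heq]
  refine (norm_add_le _ _).trans ((add_le_add (norm_sub_le _ _) le_rfl).trans ?_)
  have b1 : ‖(1 - P) (piRep f M d)‖ ≤ ‖piRep f M‖ * ‖d‖ :=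
    (norm_starProjection_apply_le hs.one_sub _).trans (ContinuousLinearMap.le_opNorm _ _)
  have b2 : ‖rhoRep f (M * Q) d‖ ≤ ‖rhoRep f M‖ * ‖d‖ := by
    refine (ContinuousLinearMap.le_opNorm _ _).trans ?_
    refine mul_le_mul_of_nonneg_right ?_ (norm_nonneg _)
    rw [rhoRep_mul hf]
    exact (norm_mul_le _ _).trans
      (mul_le_of_le_one_left (norm_nonneg _) (norm_rhoRep_compress_le hs hc hf))
  linarith

end

theorem extSite_injective (k m : ℕ) : Function.Injective (extSite k m) := by
  rintro (i | i) (j | j) h <;> simp only [extSite, Sum.elim_inl, Sum.elim_inr] at h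
  · rw [Fin.ext h]
  · omega
  · omega
  · rw [Fin.ext (show i.val = j.val by omega)]

theorem exists_emb_extSite {k m : ℕ} {s : Str} (hs : ∀ l, s l ≠ 0 → l < k + m) :
    ∃ p : Bits (Fin k ⊕ Fin m) × Bits (Fin k ⊕ Fin m), emb (extSite k m) p.1 p.2 = s := by
  refine ⟨(fun i => (s (extSite k m i)).1, fun i => (s (extSite k m i)).2), ?_⟩
  ext1 l
  by_cases h : ∃ i, extSite k m i = l
  · obtain ⟨i, rfl⟩ := h
    rw [emb_apply (extSite_injective k m)]
  · push Not at h
    rw [emb_apply_out _ _ _ h]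
    by_contra hne
    have hl : l < k + m := hs l (Ne.symm hne)
    by_cases hk : l < k
    · exact h (Sum.inl ⟨l, hk⟩) rfl
    · exact h (Sum.inr ⟨l - k, by omega⟩) (Nat.add_sub_cancel' (not_lt.1 hk))

theorem tendsto_compress {P : Hil →L[ℂ] Hil} (k : ℕ) :
    Tendsto (fun m => ‖P (evec 0) - piRep (extSite k m) (compress (extSite k m) P) (evec 0)‖)
      atTop (𝓝 0) := by
  classical
  set v := P (evec 0) with hv
  let F : ℕ → Finset Str := fun m =>
    (univ : Finset (Bits (Fin k ⊕ Fin m) × Bits (Fin k ⊕ Fin m))).image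
      fun p => emb (extSite k m) p.1 p.2
  have hF : Tendsto F atTop atTop := by
    refine tendsto_atTop.2 fun G => eventually_atTop.2
      ⟨(G.biUnion fun s => s.support).sup id + 1, fun m hm s hs => ?_⟩
    obtain ⟨p, hp⟩ := exists_emb_extSite (k := k) (m := m) (s := s) fun l hl => by
      have : l ≤ (G.biUnion fun s => s.support).sup id :=
        Finset.le_sup (f := id) (mem_biUnion.2 ⟨s, hs, Finsupp.mem_support_iff.2 hl⟩)
      omega
    exact mem_image.2 ⟨p, mem_univ _, hp⟩
  have hlim : Tendsto (fun m => ∑ s ∈ F m, lp.single 2 s (v s)) atTop (𝓝 v) :=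
    (lp.hasSum_single ENNReal.ofNat_ne_top v).comp hF
  have heq : ∀ m, ∑ s ∈ F m, lp.single 2 s (v s) =
      piRep (extSite k m) (compress (extSite k m) P) (evec 0) := by
    intro m
    rw [piRep_evec_eq, sum_image fun p _ q _ h => emb_injective (extSite_injective k m) h]
    refine sum_congr rfl fun p _ => ?_
    rw [coef_compress]
    show lp.single 2 (emb (extSite k m) p.1 p.2) (v (emb (extSite k m) p.1 p.2)) =
      v (emb (extSite k m) p.1 p.2) • evec (emb (extSite k m) p.1 p.2)
    ext u
    rw [lp.coeFn_smul, Pi.smul_apply, evec_apply, smul_eq_mul, lp.coeFn_single, Pi.single_apply]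
    split_ifs <;> simp
  simp_rw [heq] at hlim
  simpa using ((tendsto_const_nhds (x := v)).sub hlim).norm

end Vale.Agent.P131
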