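import Mathlib
import Vale.Agent.P131.Site
import Vale.Agent.P131.Stage
import Vale.Agent.P131.Pinch
import Vale.Agent.P131.Choice
import Vale.Agent.P131.Finite

/-!
Near elements of the commutant at a fixed stage.
-/

namespace Vale.Agent.P131

open Matrix Finset Filter
open scoped ComplexOrder InnerProductSpace Topology

theorem emb_apply_of_notMem {α : Type} [Fintype α] (f : α → ℕ) (a b : Bits α) {l : ℕ}
    (hl : ∀ i, f i ≠ l) : emb f a b l = 0 := by
  rw [emb, Finsupp.finsetSum_apply]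
  exact sum_eq_zero fun i _ => Finsupp.single_eq_of_ne (Ne.symm (hl i))

theorem emb_single {α : Type} [Fintype α] [DecidableEq α] (f : α → ℕ) (i : α) (t : ZMod 2) :
    emb f (Pi.single i 1) (Pi.single i t) = Finsupp.single (f i) (1, t) := by
  rw [emb, Finset.sum_eq_single i]
  · simp
  · intro j _ hj
    simp [Pi.single_eq_of_ne hj]
  · simp

theorem piRep_lowerMat {α : Type} [Fintype α] [DecidableEq α] (f : α → ℕ) (i : α) :
    piRep f (lowerMat i) = nOp (f i) := by
  rw [lowerMat_eq, map_smul, map_add, piRep_pauli, piRep_pauli, nOp, xOp, yOp, emb_single f i 1]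
  have h := emb_single f i 0
  rw [Pi.single_zero] at h
  rw [h]

theorem piRep_lowerSum {k : ℕ} (c : ℕ → ℝ) :
    piRep (fun i : Fin k => (i : ℕ)) (lowerSum fun i : Fin k => c i) =
      ∑ l ∈ range k, (c l : ℂ) • nOp l := by
  rw [lowerSum, map_sum, ← Fin.sum_univ_eq_sum_range (fun l => (c l : ℂ) • nOp l)]
  exact sum_congr rfl fun i _ => by rw [map_smul, piRep_lowerMat]

theorem commute_piRep_of {α : Type} [Fintype α] [DecidableEq α] (f : α → ℕ)
    (M : Matrix (Bits α) (Bits α) ℂ) {A : Hil →L[ℂ] Hil}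
    (h : ∀ a b, Commute A (lOp (emb f a b))) : Commute A (piRep f M) := by
  rw [← pauli_sum M, map_sum]
  refine Commute.sum_right _ _ _ fun p _ => ?_
  rw [map_smul, piRep_pauli]
  exact (h _ _).smul_right _

theorem piRep_comm_theOp {k : ℕ} {c : ℕ → ℝ} (hc : Summable c) (h0 : ∀ j, 0 ≤ c j)
    {Φ : Matrix (Bits (Fin k)) (Bits (Fin k)) ℂ}
    (hΦ : Commute Φ (lowerSum fun i : Fin k => c i)) :
    Commute (piRep (fun i : Fin k => (i : ℕ)) Φ) (theOp c) := by
  refine commute_theOp hc h0 (range k) (fun l hl => ?_) ?_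
  · rw [mem_range, not_lt] at hl
    refine (commute_piRep_of _ Φ fun a b => ?_).symm
    have key : ∀ p, Commute (lOp (Finsupp.single l p)) (lOp (emb (fun i : Fin k => (i : ℕ)) a b)) := by
      intro p
      refine lOp_comm ?_
      rw [bet_single_left, emb_apply_of_notMem _ _ _ (fun i => by omega), Prod.fst_zero, mul_zero,
        bet_eq_zero_of_left]
      intro j
      rcases eq_or_ne j l with rfl | hj
      · left
        rw [emb_apply_of_notMem _ _ _ (fun i => by omega)]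
        rfl
      · right
        rw [Finsupp.single_eq_of_ne hj]
        rfl
    exact (comm_nOp (key _).symm (key _).symm).symm
  · rw [← piRep_lowerSum, commute_iff_eq,
      ← piRep_mul Fin.val_injective, ← piRep_mul Fin.val_injective, hΦ.eq]

theorem piRep_comm_zProd {k : ℕ} (Φ : Matrix (Bits (Fin k)) (Bits (Fin k)) ℂ) {F : Finset ℕ}
    (hF : ∀ l ∈ F, k ≤ l) : Commute (zProd F) (piRep (fun i : Fin k => (i : ℕ)) Φ) := by
  refine commute_piRep_of _ Φ fun a b => lOp_comm ?_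
  rw [bet_eq_zero_of_left, bet_eq_zero_of_left] <;> intro j
  · right
    rw [zStr_apply]
    split_ifs <;> rfl
  · by_cases hj : j ∈ F
    · right
      rw [emb_apply_of_notMem _ _ _ (fun i => by have := hF j hj; omega)]
      rfl
    · left
      rw [zStr_apply, if_neg hj]
      rfl

/-- An invariant projection kills corners of elements near the commutant. -/
theorem norm_corner_le {T P E W : Hil →L[ℂ] Hil} (hs : IsStarProjection P)
    (hinv : ∀ A, Commute A T → P * (A * P) = A * P) (hE : Commute E T) {r : ℝ}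
    (hr : ‖W - E‖ ≤ r) : ‖((1 - P) * W * P) (evec 0)‖ ≤ r := by
  have h : (1 - P) * E * P = 0 := by
    rw [mul_assoc, sub_mul, one_mul, hinv E hE, sub_self]
  rw [show (1 - P) * W * P = (1 - P) * (W - E) * P from by
    rw [mul_sub, sub_mul ((1 - P) * W), h, sub_zero]]
  refine (ContinuousLinearMap.le_opNorm _ _).trans ?_
  rw [norm_evec, mul_one]
  have h1 : ‖(1 - P : Hil →L[ℂ] Hil)‖ ≤ 1 := IsStarProjection.norm_le _ hs.one_sub
  have h2 : ‖P‖ ≤ 1 := IsStarProjection.norm_le _ hs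
  refine (norm_mul_le _ _).trans ((mul_le_mul (norm_mul_le _ _) h2 (norm_nonneg _)
    (mul_nonneg (norm_nonneg _) (norm_nonneg _))).trans ?_)
  rw [mul_one]
  exact (mul_le_of_le_one_left (norm_nonneg _) h1).trans hr

theorem exists_stage_near {c θ : ℕ → ℝ} (hc : Summable c) (h0 : ∀ j, 0 < c j)
    (hs : ∑' j, c j ≤ 2) (hθ : ∀ a j, a < j → c j / c a ≤ θ j) (hθ1 : ∀ j, θ j ≤ 1) {k : ℕ}
    {G : ℝ} (hG0 : 0 ≤ G)
    (hG : ∀ F : Finset ℕ, (∀ l ∈ F, k ≤ l) → (∀ l ∈ F, 1 ≤ l) →
      4 * ∑ l ∈ F, (7 : ℝ) ^ (F.filter (· < l)).card * θ l ≤ G)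
    {Φ : Matrix (Bits (Fin k)) (Bits (Fin k)) ℂ}
    (hΦ : Commute Φ (lowerSum fun i : Fin k => c i)) (F : Finset ℕ) (hF : ∀ l ∈ F, k ≤ l) :
    ∃ E, Commute E (theOp c) ∧
      ‖zProd F * piRep (fun i : Fin k => (i : ℕ)) (Φ * lowerSum fun i : Fin k => c i) - E‖ ≤
        2 * ‖piRep (fun i : Fin k => (i : ℕ)) Φ‖ * G := by
  have ex : ∀ a, ∃ E, Commute E (theOp c) ∧
      (a < k → ‖zProd F * nOp a - E‖ ≤ G) := by
    intro a
    by_cases ha : a < k
    · obtain ⟨E, h1, h2⟩ := exists_near hc h0 hθ hθ1 F a fun l hl => lt_of_lt_of_le ha (hF l hl)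
      exact ⟨E, h1, fun _ => h2.trans (hG F hF fun l hl => by have := hF l hl; omega)⟩
    · exact ⟨0, Commute.zero_left _, fun h => absurd h ha⟩
  choose E hE hE' using ex
  refine ⟨piRep (fun i : Fin k => (i : ℕ)) Φ * ∑ a ∈ range k, (c a : ℂ) • E a,
    (piRep_comm_theOp hc (fun j => (h0 j).le) hΦ).mul_left
      (Commute.sum_left _ _ _ fun a _ => (hE a).smul_left _), ?_⟩
  rw [piRep_mul Fin.val_injective, piRep_lowerSum, ← mul_assoc, (piRep_comm_zProd Φ hF).eq,
    mul_assoc, ← mul_sub, mul_sum, ← sum_sub_distrib]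
  refine (norm_mul_le _ _).trans ?_
  rw [mul_comm (2 : ℝ), mul_assoc]
  refine mul_le_mul_of_nonneg_left ((norm_sum_le _ _).trans ?_) (norm_nonneg _)
  refine le_trans (sum_le_sum fun a ha => ?_)
    (((sum_mul _ _ _).symm.trans_le (mul_le_mul_of_nonneg_right
      ((hc.sum_le_tsum _ fun j _ => (h0 j).le).trans hs) hG0)) : ∑ a ∈ range k, c a * G ≤ 2 * G)
  rw [mul_smul_comm, ← smul_sub, norm_smul, Complex.norm_real, Real.norm_eq_abs,
    abs_of_pos (h0 a)]
  exact mul_le_mul_of_nonneg_left (hE' a (mem_range.1 ha)) (h0 a).le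

end Vale.Agent.P131
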