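import Mathlib
import Vale.Agent.P131.Near

/-!
The bound for one coordinate of an invariant projection.
-/

namespace Vale.Agent.P131

open Matrix Finset Filter
open scoped ComplexOrder InnerProductSpace Topology

theorem norm_entry_le {n : Type} [Fintype n] [DecidableEq n] {B : Matrix n n ℂ}
    (hB : B.PosSemidef) (hB' : (1 - B).PosSemidef) (i j : n) : ‖B i j‖ ≤ 1 := by
  have hd : ∀ l, 0 ≤ (B l l).re ∧ (B l l).re ≤ 1 ∧ (B l l).im = 0 := by
    intro l
    have h1 := Complex.le_def.1 (hB.diag_nonneg (i := l))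
    have h2 := Complex.le_def.1 (hB'.diag_nonneg (i := l))
    simp at h1 h2
    exact ⟨h1.1, h2.1, h1.2.symm⟩
  rcases eq_or_ne i j with rfl | hij
  · have he : B i i = ((B i i).re : ℂ) := Complex.ext rfl (by simp [(hd i).2.2])
    rw [he, Complex.norm_real, Real.norm_eq_abs, abs_le]
    constructor <;> linarith [(hd i).1, (hd i).2.1]
  rcases eq_or_ne (B i j) 0 with h0 | h0
  · simp [h0]
  have hn : (‖B i j‖ : ℂ) ≠ 0 := by simpa using h0
  set w : ℂ := -(star (B i j)) / (‖B i j‖ : ℂ)
  have h := hB.dotProduct_mulVec_nonneg (Pi.single i 1 + Pi.single j w)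
  have hmul : star (B i j) * B i j = (‖B i j‖ : ℂ) ^ 2 := by
    rw [Complex.star_def, Complex.conj_mul']
  have e1 : B i j * w = -(‖B i j‖ : ℂ) := by
    simp only [w]
    field_simp
    linear_combination -hmul
  have e2 : star w * B j i = -(‖B i j‖ : ℂ) := by
    rw [← hB.1.apply j i, ← star_mul' w (B i j), mul_comm, e1]
    simp
  have e3 : star w * w = 1 := by
    simp only [w, star_div₀, star_neg, Complex.star_def, Complex.conj_conj, Complex.conj_ofReal]
    rw [Complex.star_def] at hmul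
    field_simp
    linear_combination hmul
  simp [mulVec_add, dotProduct_add, add_dotProduct, star_add, mulVec_single, Pi.star_single,
    single_dotProduct] at h
  rw [← Complex.star_def, show w * (B i j + star w * B j j) =
    B i j * w + B j j * (star w * w) from by ring, e3, e1, e2, mul_one] at h
  have h' := (Complex.le_def.1 h).1
  simp at h'
  linarith [(hd i).2.1, (hd j).2.1]

theorem norm_trace_pauli_le {α : Type} [Fintype α] [DecidableEq α]
    {B : Matrix (Bits α) (Bits α) ℂ} (hB : B.PosSemidef) (hB' : (1 - B).PosSemidef)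
    (a b : Bits α) : ‖(pauli a b * B).trace‖ ≤ 2 ^ Fintype.card α := by
  refine (norm_sum_le _ _).trans (le_trans (sum_le_card_nsmul _ _ 1 fun x _ => ?_) ?_)
  · rw [diag_apply, Matrix.mul_apply, Finset.sum_eq_single (x + a)]
    · rw [pauli_apply, add_assoc, bits_add_self, add_zero, if_pos rfl, norm_mul, norm_chi, one_mul]
      exact norm_entry_le hB hB' _ _
    · intro y _ hy
      rw [pauli_apply, if_neg, zero_mul]
      intro h
      exact hy (by rw [h, add_assoc, bits_add_self, add_zero])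
    · simp
  · simp

theorem emb_sum_right {k m : ℕ} (b : Bits (Fin m)) :
    emb (extSite k m) 0 (Sum.elim 0 b) =
      zStr ((univ.filter fun i : Fin m => b i = 1).image fun i : Fin m => k + (i : ℕ)) := by
  rw [zStr, sum_image (fun i _ j _ h => Fin.ext (by simpa using h)), sum_filter, emb,
    Fintype.sum_sum_type]
  simp only [extSite, Sum.elim_inl, Sum.elim_inr, Pi.zero_apply, Prod.mk_zero_zero,
    Finsupp.single_zero, sum_const_zero, zero_add]
  refine sum_congr rfl fun i _ => ?_
  rcases zmod2_cases (b i) with h | h <;> simp [h]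

theorem emb_sum_left {k m : ℕ} (a b : Bits (Fin k)) :
    emb (extSite k m) (Sum.elim a 0) (Sum.elim b 0) = emb (fun i : Fin k => (i : ℕ)) a b := by
  rw [emb, Fintype.sum_sum_type, emb]
  simp [extSite, Prod.mk_zero_zero]

theorem coord_le {P : Hil →L[ℂ] Hil} (hs : IsStarProjection P) (hc : ∀ s, Commute P (rOp s))
    {T : Hil →L[ℂ] Hil} (hinv : ∀ A, Commute A T → P * (A * P) = A * P)
    {k r : ℕ} (A : Fin r → Matrix (Bits (Fin k)) (Bits (Fin k)) ℂ) (ρ : Fin r → ℝ)
    (hA : ∀ (l : Fin r) (F : Finset ℕ), (∀ j ∈ F, k ≤ j) → ∃ E, Commute E T ∧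
      ‖zProd F * piRep (fun i : Fin k => (i : ℕ)) (A l) - E‖ ≤ ρ l)
    {η D : ℝ} (hη : 0 < η) (hD : 0 ≤ D)
    (hthr : ∀ B : Matrix (Bits (Fin k)) (Bits (Fin k)) ℂ, B.PosSemidef → (1 - B).PosSemidef →
        ∑ l, hsq ((1 - B) * A l * B) ≤ η →
        ∀ a b : Bits (Fin k), (a ≠ 0 ∨ b ≠ 0) → ‖(pauli a b * B).trace‖ ≤ D)
    (a b : Bits (Fin k)) (hab : a ≠ 0 ∨ b ≠ 0) :
    ‖P (evec 0) (emb (fun i : Fin k => (i : ℕ)) a b)‖ ≤
      D / 2 ^ k + 2 ^ k / η * ∑ l, ρ l ^ 2 := by
  set v : Fin k → ℕ := fun i => (i : ℕ)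
  set K : Fin r → ℝ := fun l => ‖piRep v (A l)‖ + ‖rhoRep v (A l)‖
  set d : ℕ → ℝ := fun m =>
    ‖P (evec 0) - piRep (extSite k m) (compress (extSite k m) P) (evec 0)‖
  have key : ∀ m, ‖P (evec 0) (emb v a b)‖ ≤
      D / 2 ^ k + 2 ^ k / η * ∑ l, (ρ l + K l * d m) ^ 2 := by
    intro m
    set f := extSite k m
    set Q := compress f P
    have hf := extSite_injective k m
    have hQ := compress_posSemidef hs hc hf
    have hQ' := one_sub_compress_posSemidef hs hc hf
    have hcard : Fintype.card (Fin k ⊕ Fin m) = k + m := by simp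
    have hb : ∀ (l : Fin r) (x : Bits (Fin m)),
        hsq ((1 - Q) * (pauli 0 (Sum.elim 0 x) * liftMat (A l)) * Q) ≤
          2 ^ (k + m) * (ρ l + K l * d m) ^ 2 := by
      intro l x
      set M := pauli 0 (Sum.elim 0 x) * liftMat (A l)
      have h := hsq_corner_le hs hc hf M
      rw [hcard, div_le_iff₀ (by positivity)] at h
      refine h.trans ((mul_comm _ _).trans_le (mul_le_mul_of_nonneg_left ?_ (by positivity)))
      have hpi : piRep f M = lOp (emb f 0 (Sum.elim 0 x)) * piRep v (A l) := by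
        rw [piRep_mul hf, piRep_pauli, piRep_liftMat]
        rfl
      have hrho : rhoRep f M = rhoRep v (A l) * rOp (emb f 0 (Sum.elim 0 x)) := by
        rw [rhoRep_mul hf, rhoRep_pauli, rhoRep_liftMat]
        rfl
      obtain ⟨E, hE1, hE2⟩ := hA l
        ((univ.filter fun i : Fin m => x i = 1).image fun i : Fin m => k + (i : ℕ)) (by simp)
      have h1 : ‖((1 - P) * piRep f M * P) (evec 0)‖ ≤ ρ l := by
        rw [hpi, emb_sum_right]
        exact norm_corner_le hs hinv hE1 hE2
      have h2 : ‖piRep f M‖ + ‖rhoRep f M‖ ≤ K l := by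
        rw [hpi, hrho]
        exact add_le_add ((norm_mul_le _ _).trans (mul_le_of_le_one_left (norm_nonneg _)
          (norm_lOp_le _))) ((norm_mul_le _ _).trans (mul_le_of_le_one_right (norm_nonneg _)
          (norm_rOp_le _)))
      exact pow_le_pow_left₀ (by positivity)
        (add_le_add h1 (mul_le_mul_of_nonneg_right h2 (norm_nonneg _))) 2
    have hg : ∑ x : Bits (Fin m), ∑ l, hsq ((1 - blockMat Q x) * A l * blockMat Q x) ≤
        2 ^ (k + m) * ∑ l, (ρ l + K l * d m) ^ 2 := by
      rw [sum_comm, mul_sum]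
      refine sum_le_sum fun l _ => ?_
      have h1 := (sum_hsq_blockMat_le Q (A l)).trans (sum_le_card_nsmul _ _ _ fun x _ => hb l x)
      simp only [Finset.card_univ, Fintype.card_fun, ZMod.card, Fintype.card_fin, nsmul_eq_mul,
        Nat.cast_pow, Nat.cast_ofNat] at h1
      exact le_of_mul_le_mul_left h1 (by positivity)
    have hx : ∀ x : Bits (Fin m), ‖(pauli a b * blockMat Q x).trace‖ ≤
        D + 2 ^ k / η * ∑ l, hsq ((1 - blockMat Q x) * A l * blockMat Q x) := by
      intro x
      obtain ⟨hB, hsub⟩ := posSemidef_blockMat hQ x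
      have hB' : (1 - blockMat Q x).PosSemidef := hsub ▸ (posSemidef_blockMat hQ' x).1
      have hnn : 0 ≤ ∑ l, hsq ((1 - blockMat Q x) * A l * blockMat Q x) :=
        sum_nonneg fun l _ => sum_nonneg fun _ _ => sum_nonneg fun _ _ => by positivity
      by_cases h : ∑ l, hsq ((1 - blockMat Q x) * A l * blockMat Q x) ≤ η
      · exact (hthr _ hB hB' h a b hab).trans (le_add_of_nonneg_right (by positivity))
      · refine (norm_trace_pauli_le hB hB' a b).trans (le_add_of_nonneg_of_le hD ?_)
        rw [Fintype.card_fin, div_mul_eq_mul_div, le_div_iff₀ hη]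
        exact mul_le_mul_of_nonneg_left (not_le.1 h).le (by positivity)
    have h4 := trace_pauli_compress hs hc hf (Sum.elim a 0) (Sum.elim b 0)
    rw [← sum_trace_blockMat, hcard, emb_sum_left] at h4
    have h5 := h4.symm.trans_le ((norm_sum_le _ _).trans (sum_le_sum fun x _ => hx x))
    rw [sum_add_distrib, ← mul_sum, sum_const, Finset.card_univ, Fintype.card_fun, ZMod.card,
      Fintype.card_fin, nsmul_eq_mul, Nat.cast_pow, Nat.cast_ofNat] at h5
    have h6 := h5.trans (add_le_add le_rfl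
      (mul_le_mul_of_nonneg_left hg (by positivity : (0 : ℝ) ≤ 2 ^ k / η)))
    refine le_of_mul_le_mul_left (h6.trans_eq ?_) (by positivity : (0 : ℝ) < 2 ^ (k + m))
    generalize ∑ l, (ρ l + K l * d m) ^ 2 = S
    rw [pow_add]
    field_simp
  refine ge_of_tendsto ?_ (Eventually.of_forall key : ∀ᶠ m in atTop, _)
  have hd : Tendsto d atTop (𝓝 0) := tendsto_compress k
  have h : Tendsto (fun m => D / 2 ^ k + 2 ^ k / η * ∑ l, (ρ l + K l * d m) ^ 2) atTop
      (𝓝 (D / 2 ^ k + 2 ^ k / η * ∑ l, (ρ l + K l * 0) ^ 2)) :=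
    tendsto_const_nhds.add ((tendsto_finsetSum _ fun l _ =>
      (tendsto_const_nhds.add (hd.const_mul _)).pow 2).const_mul _)
  simpa using h

end Vale.Agent.P131
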