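import Mathlib
import Vale.Agent.P131.Coord

/-!
An operator with transitive commutant.
-/

namespace Vale.Agent.P131

open Matrix Finset Filter
open scoped ComplexOrder InnerProductSpace Topology

theorem central_sq_le (m : ℕ) : (Nat.choose (2 * m) m) ^ 2 * (3 * m + 1) ≤ 16 ^ m := by
  induction m with
  | zero => simp
  | succ m IH =>
    have h := Nat.succ_mul_centralBinom_succ m
    simp only [Nat.centralBinom] at h
    refine le_of_mul_le_mul_left ?_ (Nat.pos_of_ne_zero
      (by positivity : ((m + 1) ^ 2 * (3 * m + 1)) ≠ 0))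
    calc (m + 1) ^ 2 * (3 * m + 1) *
          ((Nat.choose (2 * (m + 1)) (m + 1)) ^ 2 * (3 * (m + 1) + 1))
        = ((m + 1) * Nat.choose (2 * (m + 1)) (m + 1)) ^ 2 * (3 * m + 4) * (3 * m + 1) := by ring
      _ = ((Nat.choose (2 * m) m) ^ 2 * (3 * m + 1)) *
            (4 * (2 * m + 1) ^ 2 * (3 * m + 4)) := by rw [h]; ring
      _ ≤ 16 ^ m * (16 * ((m + 1) ^ 2 * (3 * m + 1))) := Nat.mul_le_mul IH (by nlinarith)
      _ = (m + 1) ^ 2 * (3 * m + 1) * 16 ^ (m + 1) := by ring

theorem tendsto_choose_div :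
    Tendsto (fun k => (Nat.choose k (k / 2) : ℝ) / 2 ^ k) atTop (𝓝 0) := by
  have hb : ∀ k, (Nat.choose k (k / 2) : ℝ) / 2 ^ k ≤ Real.sqrt (1 / (3 * ((k / 2 : ℕ) : ℝ) + 1)) := by
    intro k
    refine Real.le_sqrt_of_sq_le ?_
    set m := k / 2
    have h1 : Nat.choose k m * 2 ^ (2 * m) ≤ Nat.choose (2 * m) m * 2 ^ k := by
      rcases Nat.even_or_odd k with ⟨n, rfl⟩ | ⟨n, rfl⟩
      · have hm : m = n := by omega
        rw [hm, ← two_mul]
      · have hm : m = n := by omega
        rw [hm, pow_succ, mul_comm (2 ^ (2 * n)) 2, ← mul_assoc]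
        refine Nat.mul_le_mul_right _ ?_
        cases n with
        | zero => simp
        | succ i =>
          rw [Nat.choose_succ_succ' (2 * (i + 1)) i, mul_two]
          exact Nat.add_le_add_right (by
            have := Nat.choose_le_middle i (2 * (i + 1))
            rwa [Nat.mul_div_cancel_left _ (by norm_num : 0 < 2)] at this) _
    have h1' : (Nat.choose k m : ℝ) * 2 ^ (2 * m) ≤ (Nat.choose (2 * m) m : ℝ) * 2 ^ k := by
      exact_mod_cast h1
    have h2 : (Nat.choose (2 * m) m : ℝ) ^ 2 * (3 * (m : ℝ) + 1) ≤ 16 ^ m := by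
      exact_mod_cast central_sq_le m
    have h16 : ((2 : ℝ) ^ (2 * m)) ^ 2 = 16 ^ m := by
      rw [← pow_mul, show 2 * m * 2 = 4 * m by ring, pow_mul]
      norm_num
    have h3 := pow_le_pow_left₀ (by positivity) h1' 2
    rw [mul_pow, mul_pow, h16] at h3
    rw [div_pow, div_le_div_iff₀ (by positivity) (by positivity), one_mul]
    refine le_of_mul_le_mul_left ?_ (by positivity : (0 : ℝ) < 16 ^ m)
    nlinarith [mul_le_mul_of_nonneg_left h2 (by positivity : (0 : ℝ) ≤ ((2 : ℝ) ^ k) ^ 2),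
      mul_le_mul_of_nonneg_right h3 (by positivity : (0 : ℝ) ≤ 3 * (m : ℝ) + 1)]
  refine squeeze_zero (fun k => by positivity) hb ?_
  rw [← Real.sqrt_zero]
  refine (Real.continuous_sqrt.tendsto _).comp ?_
  have h : Tendsto (fun k : ℕ => (3 * ((k / 2 : ℕ) : ℝ) + 1)) atTop atTop :=
    tendsto_atTop_add_const_right _ _ (Tendsto.const_mul_atTop (by norm_num)
      (tendsto_natCast_atTop_atTop.comp (Nat.tendsto_div_const_atTop two_ne_zero)))
  simp only [one_div]
  exact h.inv_tendsto_atTop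

theorem exists_gauge : ∃ G : (k : ℕ) → (Fin k → ℝ) → ℝ, (∀ k v, 0 < G k v) ∧
    ∀ k v, (∀ i, 0 < v i) → ∃ η : ℝ, 0 < η ∧ ∃ (r : ℕ)
      (Φ : Fin r → Matrix (Bits (Fin k)) (Bits (Fin k)) ℂ),
      (∀ l, Commute (Φ l) (lowerSum v)) ∧
      (∀ B : Matrix (Bits (Fin k)) (Bits (Fin k)) ℂ, B.PosSemidef → (1 - B).PosSemidef →
        ∑ l, hsq ((1 - B) * (Φ l * lowerSum v) * B) ≤ η →
        ∀ a b : Bits (Fin k), (a ≠ 0 ∨ b ≠ 0) →
          ‖(pauli a b * B).trace‖ ≤ 6 * (Nat.choose k (k / 2) : ℝ) + 1) ∧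
      2 ^ k / η * ∑ l, (2 * ‖piRep (fun i : Fin k => (i : ℕ)) (Φ l)‖ * G k v) ^ 2
        ≤ 1 / 2 ^ k := by
  have key : ∀ k v, ∃ g : ℝ, 0 < g ∧ ((∀ i, 0 < v i) → ∃ η : ℝ, 0 < η ∧ ∃ (r : ℕ)
      (Φ : Fin r → Matrix (Bits (Fin k)) (Bits (Fin k)) ℂ),
      (∀ l, Commute (Φ l) (lowerSum v)) ∧
      (∀ B : Matrix (Bits (Fin k)) (Bits (Fin k)) ℂ, B.PosSemidef → (1 - B).PosSemidef →
        ∑ l, hsq ((1 - B) * (Φ l * lowerSum v) * B) ≤ η →
        ∀ a b : Bits (Fin k), (a ≠ 0 ∨ b ≠ 0) →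
          ‖(pauli a b * B).trace‖ ≤ 6 * (Nat.choose k (k / 2) : ℝ) + 1) ∧
      2 ^ k / η * ∑ l, (2 * ‖piRep (fun i : Fin k => (i : ℕ)) (Φ l)‖ * g) ^ 2
        ≤ 1 / 2 ^ k) := by
    intro k v
    by_cases hv : ∀ i, 0 < v i
    · obtain ⟨η, hη, r, Φ, h1, h2⟩ := exists_threshold v hv
      set S := ∑ l, (2 * ‖piRep (fun i : Fin k => (i : ℕ)) (Φ l)‖) ^ 2
      have hS : 0 ≤ S := sum_nonneg fun _ _ => sq_nonneg _
      set g := min 1 (η / (4 ^ k * (S + 1)))
      have hg : 0 < g := lt_min one_pos (by positivity)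
      refine ⟨g, hg, fun _ => ⟨η, hη, r, Φ, h1, fun B hB hB' h => h2 B hB hB' ?_, ?_⟩⟩
      · refine le_trans (le_of_eq (sum_congr rfl fun l _ => ?_)) h
        rw [mul_assoc (1 - B)]
      · have e : ∑ l, (2 * ‖piRep (fun i : Fin k => (i : ℕ)) (Φ l)‖ * g) ^ 2 = S * g ^ 2 := by
          rw [sum_mul]
          exact sum_congr rfl fun l _ => by ring
        rw [e, div_mul_eq_mul_div, div_le_div_iff₀ hη (by positivity), one_mul]
        have h3 : g * (4 ^ k * (S + 1)) ≤ η := (le_div_iff₀ (by positivity)).1 (min_le_right _ _)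
        have h4 : g ^ 2 ≤ g := by nlinarith [min_le_left 1 (η / (4 ^ k * (S + 1)))]
        have h5 : (2 : ℝ) ^ k * 2 ^ k = 4 ^ k := by rw [← mul_pow]; norm_num
        calc 2 ^ k * (S * g ^ 2) * 2 ^ k = 4 ^ k * S * g ^ 2 := by rw [← h5]; ring
          _ ≤ 4 ^ k * (S + 1) * g :=
            mul_le_mul (mul_le_mul_of_nonneg_left (by linarith) (by positivity)) h4 (sq_nonneg _)
              (by positivity)
          _ ≤ η := by linarith
    · exact ⟨1, one_pos, fun h => absurd h hv⟩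
  choose G hG hG' using key
  exact ⟨G, hG, hG'⟩

theorem exists_supported (s : Str) : ∀ᶠ k in atTop, ∃ a b : Bits (Fin k),
    emb (fun i : Fin k => (i : ℕ)) a b = s ∧ (s ≠ 0 → a ≠ 0 ∨ b ≠ 0) := by
  refine eventually_atTop.2 ⟨s.support.sup id + 1, fun k hk => ?_⟩
  have e : emb (fun i : Fin k => (i : ℕ)) (fun i => (s i).1) (fun i => (s i).2) = s := by
    refine Finsupp.ext fun l => ?_
    by_cases hl : l < k
    · rw [emb, Finsupp.finsetSum_apply, Finset.sum_eq_single ⟨l, hl⟩]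
      · simp
      · intro i _ hi
        exact Finsupp.single_eq_of_ne (fun h => hi (Fin.ext h.symm))
      · simp
    · rw [emb_apply_of_notMem _ _ _ (fun i => by omega)]
      refine (Finsupp.notMem_support_iff.1 fun h => ?_).symm
      have : l ≤ s.support.sup id := le_sup (f := id) h
      omega
  refine ⟨_, _, e, fun hs => ?_⟩
  by_contra hab
  rw [not_or, not_not, not_not] at hab
  refine hs (e.symm.trans ?_)
  rw [hab.1, hab.2, emb]
  simp [Prod.mk_zero_zero]

theorem eq_bot_or_top {T : Hil →L[ℂ] Hil} (hT : ∀ s, Commute (rOp s) T)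
    (hzero : ∀ P : Hil →L[ℂ] Hil, IsStarProjection P → (∀ s, Commute P (rOp s)) →
      (∀ A, Commute A T → P * (A * P) = A * P) → ∀ s, s ≠ 0 → P (evec 0) s = 0)
    (X : Submodule ℂ Hil) (hX : IsClosed (X : Set Hil))
    (hinvX : ∀ A : Hil →L[ℂ] Hil, A * T = T * A → ∀ x ∈ X, A x ∈ X) : X = ⊥ ∨ X = ⊤ := by
  have : CompleteSpace X := hX.completeSpace_coe
  set P := X.starProjection
  have hP : IsStarProjection P := isStarProjection_starProjection
  have hmem : ∀ x, P x ∈ X := fun x => Submodule.starProjection_apply_mem X x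
  have hinv : ∀ A, Commute A T → P * (A * P) = A * P := by
    intro A hA
    refine ContinuousLinearMap.ext fun x => ?_
    exact Submodule.starProjection_eq_self_iff.2 (hinvX A hA.eq _ (hmem x))
  have hc : ∀ s, Commute P (rOp s) := by
    intro s
    have h1 := hinv _ (hT s)
    have h2 := hinv (star (rOp s)) (by rw [rOp_star]; exact (hT s).smul_left _)
    have h3 := congrArg star h2
    rw [star_mul, star_mul, star_star, hP.isSelfAdjoint.star_eq, mul_assoc, h1] at h3
    exact h3.symm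
  have hP0 : P (evec 0) = (P (evec 0) 0) • evec 0 := by
    refine lp.ext (funext fun u => ?_)
    change P (evec 0) u = P (evec 0) 0 * evec 0 u
    rcases eq_or_ne u 0 with rfl | hu
    · rw [evec_apply, if_pos rfl, mul_one]
    · rw [hzero P hP hc hinv u hu, evec_apply, if_neg hu, mul_zero]
  have hPs : ∀ s, P (evec s) = (P (evec 0) 0) • evec s := by
    intro s
    calc P (evec s) = (P * rOp s) (evec 0) := by rw [← rOp_evec s]; rfl
      _ = rOp s (P (evec 0)) := by rw [(hc s).eq]; rfl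
      _ = _ := by rw [hP0, map_smul, rOp_evec, ← hP0]
  have hP1 : P = (P (evec 0) 0) • (1 : Hil →L[ℂ] Hil) := ext_evec fun s => hPs s
  set t := P (evec 0) 0
  have ht : t * t = t := by
    have h := DFunLike.congr_fun hP.isIdempotentElem.eq (evec 0)
    change P (P (evec 0)) = P (evec 0) at h
    rw [hPs 0, map_smul, hPs 0, smul_smul] at h
    have h' := congrArg (fun f : Hil => f 0) h
    change t * t * evec 0 0 = t * evec 0 0 at h'
    simpa [evec_apply] using h'
  rcases eq_or_ne t 0 with h0 | h0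
  · left
    refine (Submodule.eq_bot_iff X).2 fun x hx => ?_
    have h : P x = x := Submodule.starProjection_eq_self_iff.2 hx
    rw [hP1, h0, zero_smul] at h
    exact h.symm
  · right
    have h1 : t = 1 := mul_left_cancel₀ h0 (ht.trans (mul_one t).symm)
    refine Submodule.eq_top_iff'.2 fun x => Submodule.starProjection_eq_self_iff.1 ?_
    change P x = x
    rw [hP1, h1, one_smul]
    rfl

theorem theOp_ne_smul_one {c : ℕ → ℝ} (hc : Summable c) (h0 : ∀ j, 0 < c j) (μ : ℂ) :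
    theOp c ≠ μ • 1 := by
  intro h
  have hev : ∀ j, ((c j : ℂ) • nOp j) (evec 0) (Finsupp.single 0 (1, 0)) =
      if j = 0 then (c 0 : ℂ) / 2 else 0 := by
    intro j
    change (c j : ℂ) * ((1 / 2 : ℂ) * (xOp j (evec 0) (Finsupp.single 0 (1, 0)) +
      yOp j (evec 0) (Finsupp.single 0 (1, 0)))) = _
    rw [xOp, yOp, lOp_evec, lOp_evec, evec_apply, evec_apply]
    rcases eq_or_ne j 0 with rfl | hj
    · simp [Finsupp.single_eq_single_iff]
      ring
    · simp [Finsupp.single_eq_single_iff, hj, Ne.symm hj]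
  have hs := ((summable_terms hc fun j => (h0 j).le).hasSum.mapL
    (ContinuousLinearMap.apply ℂ Hil (evec 0))).mapL
      (lp.evalCLM ℂ (fun _ : Str => ℂ) 2 (Finsupp.single 0 (1, 0)))
  change HasSum (fun j => ((c j : ℂ) • nOp j) (evec 0) (Finsupp.single 0 (1, 0)))
    (theOp c (evec 0) (Finsupp.single 0 (1, 0))) at hs
  simp only [hev, h] at hs
  have h1 := hs.unique (hasSum_ite_eq 0 ((c 0 : ℂ) / 2))
  change μ * evec 0 (Finsupp.single 0 (1, 0)) = (c 0 : ℂ) / 2 at h1
  rw [evec_apply, if_neg (by simp), mul_zero] at h1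
  exact (div_ne_zero (by exact_mod_cast (h0 0).ne') two_ne_zero) h1.symm

theorem separable_hil : TopologicalSpace.SeparableSpace Hil := by
  refine TopologicalSpace.isSeparable_univ_iff.1 ?_
  refine TopologicalSpace.IsSeparable.mono
    ((Set.countable_range evec).isSeparable.span (R := ℂ)).closure fun f _ => ?_
  refine mem_closure_of_tendsto (lp.hasSum_single ENNReal.ofNat_ne_top f)
    (Eventually.of_forall fun F => ?_)
  refine Submodule.sum_mem _ fun u _ => ?_
  have : lp.single 2 u (f u) = f u • evec u := by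
    rw [evec, ← lp.single_smul]
    simp
  rw [this]
  exact Submodule.smul_mem _ _ (Submodule.subset_span (Set.mem_range_self u))

theorem not_finiteDimensional_hil : ¬ FiniteDimensional ℂ Hil := by
  intro h
  have ho : Orthonormal ℂ evec := orthonormal_iff_ite.2 fun s t => by
    rw [evec_inner, evec_apply]
  have := ho.linearIndependent.finite
  exact not_finite Str

/-- A nonscalar operator whose commutant is transitive. -/
theorem exists_transitive_commutant :
    ∃ T : Hil →L[ℂ] Hil, (∀ μ : ℂ, T ≠ μ • 1) ∧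
      ∀ X : Submodule ℂ Hil, IsClosed (X : Set Hil) →
        (∀ A : Hil →L[ℂ] Hil, A * T = T * A → ∀ x ∈ X, A x ∈ X) → X = ⊥ ∨ X = ⊤ := by
  obtain ⟨G, hG, hG'⟩ := exists_gauge
  obtain ⟨c, θ, h0, hc, hs2, hθ, hθ1, hFG⟩ := exists_coefficients G hG
  refine ⟨theOp c, theOp_ne_smul_one hc h0, fun X hX hinvX => ?_⟩
  refine eq_bot_or_top (fun s => ?_) (fun P hP hcP hinv s hs => ?_) X hX hinvX
  · exact commute_theOp hc (fun j => (h0 j).le) ∅ (fun l _ => rOp_nOp_comm s l) (by simp)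
  have hb : ∀ᶠ k in atTop, ‖P (evec 0) s‖ ≤
      6 * ((Nat.choose k (k / 2) : ℝ) / 2 ^ k) + 2 * (1 / 2) ^ k := by
    filter_upwards [exists_supported s] with k hk
    obtain ⟨a, b, hab, hne⟩ := hk
    obtain ⟨η, hη, r, Φ, h1, h2, h3⟩ := hG' k (fun i => c i) fun i => h0 i
    have h := coord_le hP hcP hinv (fun l => Φ l * lowerSum fun i : Fin k => c i)
      (fun l => 2 * ‖piRep (fun i : Fin k => (i : ℕ)) (Φ l)‖ * G k fun i => c i)
      (fun l F hF => exists_stage_near hc h0 hs2 hθ hθ1 (hG k _).le (hFG k) (h1 l) F hF)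
      hη (by positivity) h2 a b (hne hs)
    rw [hab] at h
    refine h.trans ((add_le_add le_rfl h3).trans_eq ?_)
    rw [div_pow, one_pow]
    ring
  have h := ge_of_tendsto ((tendsto_choose_div.const_mul 6).add
    ((tendsto_pow_atTop_nhds_zero_of_lt_one (by norm_num : (0 : ℝ) ≤ 1 / 2) (by norm_num)).const_mul
      2)) hb
  simpa using h

end Vale.Agent.P131
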